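import Vale.Agent.P027.Q.OrdB
import Vale.Agent.P027.Q.MW

set_option linter.all false

/-! Interface for the complexity lower bound (problem P027): existential theory of the rationals
and exponential time. Curve `E : y^2 = x^3 + 10 x^2 - 7 x`, point `P0 = (-1, 4)`. -/

namespace Vale.Agent.P027.N

open MvPolynomial Vale.Agent.P027 Vale.Agent.P027.Q

/-! ### Formulas and gates -/

/-- monotone formulas over literals -/
inductive Fm (α : Type) : Type
  | lit (a : α) : Fm α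
  | and (f g : Fm α) : Fm α
  | or (f g : Fm α) : Fm α

/-- truth -/
def Fm.holds {α : Type} (P : α → Prop) : Fm α → Prop
  | .lit a => P a
  | .and f g => f.holds P ∧ g.holds P
  | .or f g => f.holds P ∨ g.holds P

/-- size -/
def Fm.size {α : Type} : Fm α → ℕ
  | .lit _ => 1
  | .and f g => f.size + g.size + 1
  | .or f g => f.size + g.size + 1

/-- the valuation is twice the minimum (inert primes) -/
def gAnd (x y : ℚ) : ℚ := x ^ 2 - 2 * y ^ 2

/-- the valuation is twice the maximum (inert primes) -/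
def gOr (x y : ℚ) : ℚ := x ^ 2 * y ^ 2 / (y ^ 2 - 2 * x ^ 2)

/-- the value of a formula -/
def Fm.val {α : Type} (t : α → ℚ) : Fm α → ℚ
  | .lit a => t a
  | .and f g => gAnd (f.val t) (g.val t)
  | .or f g => gOr (f.val t) (g.val t)

/-! ### Values, checks -/

/-- `s` is a value for the odd index `m` -/
def Ix (m : ℤ) (s : ℚ) : Prop := Odd m ∧ s ≠ 0 ∧ HasX (m • P0) (-s ^ 2)

/-- `s` is a value for some odd index -/
def Quart (s : ℚ) : Prop := s ≠ 0 ∧ ∃ r : ℚ, r ^ 2 = -s ^ 4 + 10 * s ^ 2 + 7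

/-- the valuation of the values for `m` -/
noncomputable def hv (q : ℕ) (m : ℤ) : ℤ := padicValRat q (xc (m • P0)) / 2

/-- the check with source `s`: every `t i` has positive valuation at all inert `q ≠ 3` such that
the valuation of `s` is odd and negative -/
def Chk {ι : Type} (s : ℚ) (t : ι → ℚ) : Prop :=
  ∃ b a : ℚ, (b ^ 2 - s ^ 2) * (b ^ 2 - 9 * s ^ 2) = 0 ∧ Cap a b ∧ ∀ i, Con a b (gOr s (t i))

/-! ### Steps -/

/-- literals: readings of the old indices, bits of the new indices, parameters -/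
inductive Lit (I J π : Type) : Type
  | rd (k : I) : Lit I J π
  | nrd (k : I) : Lit I J π
  | one (j : J) : Lit I J π
  | zero (j : J) : Lit I J π
  | par (x : π) : Lit I J π
  | npar (x : π) : Lit I J π

/-- values of literals, source `U`, reference index `w` -/
def litV {I J π : Type} (s : I → ℚ) (s' : J → ℚ) (w : J) (U : I) (z : π → ℚ) : Lit I J π → ℚ
  | .rd k => 1 / s k
  | .nrd k => s k / s U
  | .one j => s U * s' w / s' j
  | .zero j => s' j / (s' w * s U)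
  | .par x => z x / s U + (1 - z x)
  | .npar x => (1 - z x) / s U + z x

/-- truth of literals -/
def litP {I J π : Type} (β : I → Prop) (bit : J → Prop) (z : π → ℚ) : Lit I J π → Prop
  | .rd k => β k
  | .nrd k => ¬ β k
  | .one j => bit j
  | .zero j => ¬ bit j
  | .par x => z x = 1
  | .npar x => z x = 0

/-- one step: from the values `s` to the values `s'`, constraints `G` -/
structure Stp {I J κ π : Type} (w : J) (G : κ → Fm (Lit I J π)) (z : π → ℚ) (s : I → ℚ)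
    (s' : J → ℚ) : Prop where
  quart : ∀ j, Quart (s' j)
  chk : ∀ U, Chk (s U) (Sum.elim (fun j => 1 / s' j) (fun c => (G c).val (litV s s' w U z)))

/-! ### Cells -/

/-- good primes for pairs -/
def OkP (q : ℕ) : Prop := Inert q ∧ q ≠ 3 ∧ ∃ n, Ord q n ∧ ¬ q ∣ n ∧
  ∃ r r' : ℕ, r.Prime ∧ r'.Prime ∧ r ≠ r' ∧ r ∣ n ∧ r' ∣ n

/-- `q` is a cell with reading `β` for the indices `m` -/
structure Cell {I : Type} (m : I → ℤ) (q : ℕ) (β : I → Prop) : Prop where
  ok : OkP q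
  src : ∃ U, ¬ (q : ℤ) ∣ m U ∧ Dv q (m U) ∧ Odd (hv q (m U))
  read : ∀ k, Dv q (m k) ↔ β k

/-- honest families: at every visible place the valuations are consistent and the reading is
allowed -/
structure Hon {I : Type} (m : I → ℤ) (J : (I → Prop) → Prop) : Prop where
  odd : ∀ k, Odd (m k)
  ok : ∀ U q, Inert q → Dv q (m U) → Odd (hv q (m U)) →
    (∀ k, Dv q (m k) → hv q (m k) = hv q (m U)) ∧ J (fun k => Dv q (m k))

/-- allowed readings after a step with strategy `τ` -/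
def Nxt {I J : Type} (A : (I → Prop) → Prop) (τ : (I → Prop) → J → Prop) (β' : J → Prop) : Prop :=
  ∃ X : Set (I → Prop), (∀ β ∈ X, A β) ∧ ∀ j, β' j ↔ ∀ β ∈ X, τ β j

/-! ### Statements of the modules -/

/-- parity law (module L4): at odd indices the number of inert primes in the denominator, with
multiplicity, is odd iff the index is `±5, ±7` modulo 16. (`F` is any finite set that contains the
inert primes of the denominator.) -/
def StParity : Prop := ∀ (n : ℤ) (F : Finset ℕ), Odd n → (∀ q ∈ F, Inert q) →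
  (∀ q, Inert q → Dv q n → q ∈ F) →
  (Odd (∑ q ∈ F.filter (fun q => padicValRat q (xc (n • P0)) < 0), hv q n) ↔
    (n % 16 = 5 ∨ n % 16 = 7 ∨ n % 16 = 9 ∨ n % 16 = 11))

/-- N1 -/
def StChkSound : Prop := ∀ (ι : Type) (s : ℚ) (t : ι → ℚ), Chk s t → ∀ q, Inert q → q ≠ 3 →
  s ≠ 0 → padicValRat q s < 0 → Odd (padicValRat q s) → ∀ i, t i ≠ 0 → 0 < padicValRat q (t i)

/-- N1 -/
def StChkComplete : Prop := ∀ (ι : Type) [Finite ι] (s : ℚ) (t : ι → ℚ), s ≠ 0 →
  padicValRat 2 s = 0 → 0 ≤ padicValRat 3 s → (∀ i, t i ≠ 0 ∧ padicValRat 2 (t i) = 0) →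
  (∀ q, Inert q → q ≠ 3 → padicValRat q s < 0 → Odd (padicValRat q s) →
    ∀ i, -padicValRat q s ≤ padicValRat q (t i)) → Chk s t

/-- N2: the AND lemma -/
def StAnd : Prop := ∀ (I : Type) [Finite I] (m : I → ℤ) (top : I) (q q' i j : ℕ),
  (∀ k, Odd (m k)) → q ≠ q' → OkP q → OkP q' → 2 ≤ i → 2 ≤ j →
  ((q ^ i * q' ^ j : ℕ) : ℤ) ∣ m top →
  ∃ Q, Cell m Q (fun k => ((q ^ i * q' ^ j : ℕ) : ℤ) ∣ m k)

/-- N3 -/
def StStepSound : Prop := ∀ (I J κ π : Type) [Finite I] [Finite J] (w : J)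
  (G : κ → Fm (Lit I J π)) (z : π → ℚ) (m : I → ℤ) (s : I → ℚ) (s' : J → ℚ),
  (∀ k, Ix (m k) (s k)) → (∀ x, z x = 0 ∨ z x = 1) → Stp w G z s s' →
  ∃ (m' : J → ℤ) (bit : ℕ → J → Prop), (∀ j, Ix (m' j) (s' j)) ∧
    (∀ q β, Cell m q β → ∀ c, (G c).holds (litP β (bit q) z)) ∧
    (∀ q β q' β', Cell m q β → Cell m q' β' → q ≠ q' → ∀ top, bit q top → bit q' top →
      ∃ Q, Cell m' Q (fun j => bit q j ∧ bit q' j))

/-- N4 -/
def StStepComplete : Prop := ∀ (I J κ π : Type) [Finite I] [Finite J] [Finite κ] (w : J)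
  (G : κ → Fm (Lit I J π)) (z : π → ℚ) (m : I → ℤ) (s : I → ℚ) (A : (I → Prop) → Prop)
  (τ : (I → Prop) → J → Prop),
  (∀ k, Ix (m k) (s k)) → (∀ x, z x = 0 ∨ z x = 1) → Hon m A →
  (∀ β, A β → (∀ c, (G c).holds (litP β (τ β) z)) ∧ ¬ τ β w) →
  ∃ (m' : J → ℤ) (s' : J → ℚ), (∀ j, Ix (m' j) (s' j)) ∧ Stp w G z s s' ∧ Hon m' (Nxt A τ)

/-- the relation between the values for `m` and `3 m` -/
def Tri (s s' : ℚ) : Prop := ∃ X : ℚ, 4 * (-s ^ 6 + 10 * s ^ 4 + 7 * s ^ 2) * X = (s ^ 4 + 7) ^ 2 ∧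
  (s' * s * (X + s ^ 2)) ^ 2 = (7 - X * s ^ 2) ^ 2

/-- the base values: indices `3^i * 5` -/
def Bas (K : ℕ) (s : Fin (K + 1) → ℚ) : Prop :=
  25 * s 0 ^ 2 = 1 ∧ ∀ i : Fin K, Tri (s i.castSucc) (s i.succ)

/-- N7 -/
def StBasSound : Prop := ∀ K (s : Fin (K + 1) → ℚ), Bas K s →
  ∀ i : Fin (K + 1), Ix (3 ^ (i : ℕ) * 5) (s i)

/-- N7 -/
def StBasExists : Prop := ∀ K, ∃ s : Fin (K + 1) → ℚ, Bas K s

/-- N7 -/
def StBasCell : Prop := ∀ K l : ℕ, 1 ≤ l → l ≤ K →
  ∃ q, Cell (fun i : Fin (K + 1) => (3 ^ (i : ℕ) * 5 : ℤ)) q (fun i => l ≤ (i : ℕ))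

/-- N7 -/
def StBasHon : Prop := ∀ K : ℕ, Hon (fun i : Fin (K + 1) => (3 ^ (i : ℕ) * 5 : ℤ))
  (fun β => ∃ l : ℕ, ∀ i : Fin (K + 1), β i ↔ l ≤ (i : ℕ))

end Vale.Agent.P027.N
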