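import Vale.Agent.P027.N.Val

set_option linter.all false

/-! Soundness of a step (module N3). -/

namespace Vale.Agent.P027.N

open Vale.Agent.P027 Vale.Agent.P027.Q

/-- at a source prime to `q` the valuation is the one of the order -/
lemma hv_src {q : ℕ} (hq : q.Prime) {n : ℕ} (hn : Ord q n) (hqn : ¬ q ∣ n) {m : ℤ}
    (hm : Odd m) (h : Dv q m) : hv q m = hv q n - padicValInt q m := by
  have hm0 : m ≠ 0 := by rintro rfl; exact absurd hm (by decide)
  rw [hv_ord hq hn hm0 h, padicValNat.eq_zero_of_not_dvd hqn]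
  simp

lemma litV_ne {I J π : Type} {s : I → ℚ} {s' : J → ℚ} {w : J} {U : I} {z : π → ℚ}
    (hs : ∀ k, s k ≠ 0) (hs' : ∀ j, s' j ≠ 0) (hz : ∀ x, z x = 0 ∨ z x = 1) (l : Lit I J π) :
    litV s s' w U z l ≠ 0 := by
  have hU := hs U
  have hw := hs' w
  cases l with
  | rd k => exact one_div_ne_zero (hs k)
  | nrd k => exact div_ne_zero (hs k) hU
  | one j => exact div_ne_zero (mul_ne_zero hU hw) (hs' j)
  | zero j => exact div_ne_zero (hs' j) (mul_ne_zero hw hU)
  | par x =>
    change z x / s U + (1 - z x) ≠ 0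
    rcases hz x with h | h <;> rw [h]
    · norm_num
    · simpa using hU
  | npar x =>
    change (1 - z x) / s U + z x ≠ 0
    rcases hz x with h | h <;> rw [h]
    · simpa using hU
    · norm_num

/-- the bits -/
def bitOf {I J : Type} (m : I → ℤ) (m' : J → ℤ) (w : J) (q : ℕ) (j : J) : Prop :=
  ∃ U, ¬ (q : ℤ) ∣ m U ∧ Dv q (m U) ∧ Odd (hv q (m U)) ∧
    -hv q (m U) + 1 ≤ hv q (m' w) - hv q (m' j)

theorem step_sound (hAnd : StAnd) : StStepSound := by
  intro I J κ π _ _ w G z m s s' hs hz hst
  have hm' : ∀ j, ∃ m' : ℤ, Ix m' (s' j) := fun j => quart_ix (hst.quart j)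
  choose m' hs' using hm'
  refine ⟨m', bitOf m m' w, hs', ?_, ?_⟩
  · -- the constraints hold at a cell
    intro q β hc c
    obtain ⟨⟨hq, hq3, n, hn, hqn, -⟩, ⟨U, hqU, hdU, hodd⟩, hread⟩ := hc
    have hsU := (hs U).ne
    have hvU : padicValRat q (s U) = hv q (m U) := (ix_hv (hs U) hq.1).symm
    have hneg : padicValRat q (s U) < 0 := (ix_dv (hs U) hq.1).1 hdU
    have hf : Fact q.Prime := ⟨hq.1⟩
    have hlit := litV_ne (w := w) (U := U) (fun k => (hs k).ne) (fun j => (hs' j).ne) hz
    have h1 := chk_sound _ _ _ (hst.chk U) q hq hq3 hsU hneg (by rw [hvU]; exact hodd) (Sum.inr c)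
      ((G c).val_ne hlit)
    have h2 := (G c).val_sound hq hlit h1
    refine Fm.holds_mono ?_ _ h2
    -- literal by literal
    have hU0 : padicValInt q (m U) = 0 := padicValInt.eq_zero_of_not_dvd hqU
    have hvn : hv q (m U) = hv q n := by
      rw [hv_src hq.1 hn hqn (hs U).1 hdU, hU0]; simp
    intro l hl
    cases l with
    | rd k =>
      change 0 < padicValRat q (1 / s k) at hl
      rw [padicValRat.div one_ne_zero (hs k).ne, padicValRat.one] at hl
      exact (hread k).1 ((ix_dv (hs k) hq.1).2 (by omega))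
    | nrd k =>
      change 0 < padicValRat q (s k / s U) at hl
      rw [padicValRat.div (hs k).ne hsU] at hl
      intro hβ
      have hd := (hread k).2 hβ
      have e1 := hv_src hq.1 hn hqn (hs k).1 hd
      rw [ix_hv (hs k) hq.1] at e1
      omega
    | one j =>
      change 0 < padicValRat q (s U * s' w / s' j) at hl
      rw [padicValRat.div (mul_ne_zero hsU (hs' w).ne) (hs' j).ne,
        padicValRat.mul hsU (hs' w).ne] at hl
      refine ⟨U, hqU, hdU, hodd, ?_⟩
      rw [ix_hv (hs' w) hq.1, ix_hv (hs' j) hq.1]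
      omega
    | zero j =>
      change 0 < padicValRat q (s' j / (s' w * s U)) at hl
      rw [padicValRat.div (hs' j).ne (mul_ne_zero (hs' w).ne hsU),
        padicValRat.mul (hs' w).ne hsU] at hl
      rintro ⟨U', hqU', hdU', -, hle⟩
      have hU0' : padicValInt q (m U') = 0 := padicValInt.eq_zero_of_not_dvd hqU'
      have hvn' : hv q (m U') = hv q n := by
        rw [hv_src hq.1 hn hqn (hs U').1 hdU', hU0']; simp
      rw [ix_hv (hs' w) hq.1, ix_hv (hs' j) hq.1] at hle
      omega
    | par x =>
      change 0 < padicValRat q (z x / s U + (1 - z x)) at hl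
      change z x = 1
      rcases hz x with h | h
      · rw [h] at hl
        norm_num at hl
      · exact h
    | npar x =>
      change 0 < padicValRat q ((1 - z x) / s U + z x) at hl
      change z x = 0
      rcases hz x with h | h
      · exact h
      · rw [h] at hl
        norm_num at hl
  · -- pairs of cells
    intro q β q' β' hc hc' hne top ht ht'
    -- data of one cell
    have key : ∀ q β, Cell m q β → ∃ i : ℕ, 2 ≤ i ∧ ∀ j, bitOf m m' w q j ↔
        ((q ^ i : ℕ) : ℤ) ∣ m' j := by
      intro q β hc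
      obtain ⟨⟨hq, hq3, n, hn, hqn, -⟩, ⟨U, hqU, hdU, hodd⟩, hread⟩ := hc
      have hsU := (hs U).ne
      have hvU : padicValRat q (s U) = hv q (m U) := (ix_hv (hs U) hq.1).symm
      have hneg : padicValRat q (s U) < 0 := (ix_dv (hs U) hq.1).1 hdU
      have hf : Fact q.Prime := ⟨hq.1⟩
      have hU0 : padicValInt q (m U) = 0 := padicValInt.eq_zero_of_not_dvd hqU
      have hvn : hv q (m U) = hv q n := by
        rw [hv_src hq.1 hn hqn (hs U).1 hdU, hU0]; simp
      -- all new indices are multiples of the order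
      have hdj : ∀ j, Dv q (m' j) := by
        intro j
        have h1 := chk_sound _ _ _ (hst.chk U) q hq hq3 hsU hneg (by rw [hvU]; exact hodd)
          (Sum.inl j) (one_div_ne_zero (hs' j).ne)
        change 0 < padicValRat q (1 / s' j) at h1
        rw [padicValRat.div one_ne_zero (hs' j).ne, padicValRat.one] at h1
        exact (ix_dv (hs' j) hq.1).2 (by omega)
      have hj : ∀ j, hv q (m' j) = hv q n - padicValInt q (m' j) := fun j =>
        hv_src hq.1 hn hqn (hs' j).1 (hdj j)
      refine ⟨padicValInt q (m' w) + (-hv q (m U)).toNat + 1, ?_, ?_⟩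
      · omega
      · intro j
        have hmj := (hs' j).m_ne
        have hdvd : ∀ i : ℕ, ((q ^ i : ℕ) : ℤ) ∣ m' j ↔ i ≤ padicValInt q (m' j) := by
          intro i
          rw [Nat.cast_pow, padicValInt_dvd_iff]
          constructor
          · rintro (h | h)
            · exact absurd h hmj
            · exact h
          · exact fun h => Or.inr h
        rw [hdvd]
        constructor
        · rintro ⟨U', hqU', hdU', -, hle⟩
          have hU0' : padicValInt q (m U') = 0 := padicValInt.eq_zero_of_not_dvd hqU'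
          have hvn' : hv q (m U') = hv q n := by
            rw [hv_src hq.1 hn hqn (hs U').1 hdU', hU0']; simp
          rw [hj w, hj j] at hle
          omega
        · intro h
          refine ⟨U, hqU, hdU, hodd, ?_⟩
          rw [hj w, hj j]
          omega
    obtain ⟨i, hi, hbi⟩ := key q β hc
    obtain ⟨i', hi', hbi'⟩ := key q' β' hc'
    have hcop : IsCoprime (((q ^ i : ℕ) : ℤ)) ((q' ^ i' : ℕ) : ℤ) := by
      rw [Nat.isCoprime_iff_coprime]
      exact Nat.Coprime.pow _ _ ((Nat.coprime_primes hc.ok.1.1 hc'.ok.1.1).2 hne)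
    have hiff : ∀ j, ((q ^ i * q' ^ i' : ℕ) : ℤ) ∣ m' j ↔ bitOf m m' w q j ∧ bitOf m m' w q' j := by
      intro j
      rw [hbi, hbi']
      constructor
      · intro h
        rw [Nat.cast_mul] at h
        exact ⟨(dvd_mul_right _ _).trans h, (dvd_mul_left _ _).trans h⟩
      · rintro ⟨h1, h2⟩
        rw [Nat.cast_mul]
        exact hcop.mul_dvd h1 h2
    obtain ⟨Q, hQ⟩ := hAnd J m' top q q' i i' (fun j => (hs' j).1) hne hc.ok hc'.ok hi hi'
      ((hiff top).2 ⟨ht, ht'⟩)
    exact ⟨Q, hQ.ok, hQ.src, fun j => (hQ.read j).trans (hiff j)⟩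

end Vale.Agent.P027.N
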