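import Vale.Agent.P027.N.Cmp1
import Vale.Agent.P027.N.Snd

set_option linter.all false

/-! Completeness of a step (module N4). -/

namespace Vale.Agent.P027.N

open Vale.Agent.P027 Vale.Agent.P027.Q

lemma inert_odd {q : ℕ} (h : Inert q) : Odd q := by
  obtain ⟨-, h⟩ := h
  rw [Nat.odd_iff]; omega

lemma ord_odd {q n : ℕ} (h : Ord q n) {m : ℤ} (hm : Odd m) (hd : Dv q m) : Odd n := by
  have h1 := (h.2 m).1 hd
  rw [← Nat.not_even_iff_odd]
  intro hn
  rw [even_iff_two_dvd] at hn
  have h2 : (2 : ℤ) ∣ m := dvd_trans (by exact_mod_cast hn) h1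
  obtain ⟨k, hk⟩ := hm
  omega

/-- the literals are two-adic units -/
lemma litV_unit {I J π : Type} {m : I → ℤ} {m' : J → ℤ} {s : I → ℚ} {s' : J → ℚ} {w : J} {U : I}
    {z : π → ℚ} (hs : ∀ k, Ix (m k) (s k)) (hs' : ∀ j, Ix (m' j) (s' j))
    (hz : ∀ x, z x = 0 ∨ z x = 1) (l : Lit I J π) :
    litV s s' w U z l ≠ 0 ∧ padicValRat 2 (litV s s' w U z l) = 0 := by
  refine ⟨litV_ne (fun k => (hs k).ne) (fun j => (hs' j).ne) hz l, ?_⟩
  have hf : Fact (Nat.Prime 2) := ⟨Nat.prime_two⟩
  have hU := (hs U).ne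
  have hw := (hs' w).ne
  have vU := val2_ix (hs U)
  have vw := val2_ix (hs' w)
  cases l with
  | rd k =>
    change padicValRat 2 (1 / s k) = 0
    rw [padicValRat.div one_ne_zero (hs k).ne, padicValRat.one, val2_ix (hs k)]; rfl
  | nrd k =>
    change padicValRat 2 (s k / s U) = 0
    rw [padicValRat.div (hs k).ne hU, vU, val2_ix (hs k)]; rfl
  | one j =>
    change padicValRat 2 (s U * s' w / s' j) = 0
    rw [padicValRat.div (mul_ne_zero hU hw) (hs' j).ne, padicValRat.mul hU hw, vU, vw,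
      val2_ix (hs' j)]; rfl
  | zero j =>
    change padicValRat 2 (s' j / (s' w * s U)) = 0
    rw [padicValRat.div (hs' j).ne (mul_ne_zero hw hU), padicValRat.mul hw hU, vU, vw,
      val2_ix (hs' j)]; rfl
  | par x =>
    change padicValRat 2 (z x / s U + (1 - z x)) = 0
    rcases hz x with h | h <;> rw [h]
    · norm_num
    · rw [sub_self, add_zero, padicValRat.div one_ne_zero hU, padicValRat.one, vU]; rfl
  | npar x =>
    change padicValRat 2 ((1 - z x) / s U + z x) = 0
    rcases hz x with h | h <;> rw [h]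
    · rw [sub_zero, add_zero, padicValRat.div one_ne_zero hU, padicValRat.one, vU]; rfl
    · norm_num

theorem step_complete : StStepComplete := by
  classical
  intro I J κ π _ _ _ w G z m s A τ hs hz hon hτ
  have hprime : ∀ q, Inert q → Fact q.Prime := fun q hq => ⟨hq.1⟩
  -- visible primes
  have hVfin : {q : ℕ | Inert q ∧ ∃ U, Dv q (m U) ∧ Odd (hv q (m U))}.Finite := by
    refine (Set.finite_iUnion (fun U => fin_dv (hs U).m_ne)).subset ?_
    rintro q ⟨hq, U, hU, -⟩
    exact Set.mem_iUnion.2 ⟨U, hq.1, hU⟩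
  obtain ⟨V, hV⟩ : ∃ V : Finset ℕ, ∀ q, q ∈ V ↔ (Inert q ∧ ∃ U, Dv q (m U) ∧ Odd (hv q (m U))) :=
    ⟨hVfin.toFinset, fun q => by rw [Set.Finite.mem_toFinset]; rfl⟩
  -- data
  have hdat : ∀ q : ℕ, ∃ (n σ : ℕ), q ∈ V → Ord q n ∧ Odd n ∧ 0 < σ ∧
      (∀ k, Dv q (m k) → hv q (m k) = -σ) ∧ A (fun k => Dv q (m k)) := by
    intro q
    by_cases hq : q ∈ V
    · obtain ⟨hi, U, hU, hodd⟩ := (hV q).1 hq
      obtain ⟨n, hn⟩ := exists_Ord hi.1 (hs U).m_ne hU
      obtain ⟨h1, h2⟩ := hon.ok U q hi hU hodd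
      have hneg : hv q (m U) < 0 := by
        rw [ix_hv (hs U) hi.1]; exact (ix_dv (hs U) hi.1).1 hU
      refine ⟨n, (-hv q (m U)).toNat, fun _ => ⟨hn, ord_odd hn (hs U).1 hU, by omega, ?_, h2⟩⟩
      intro k hk
      rw [h1 k hk]
      omega
    · exact ⟨0, 0, fun h => absurd h hq⟩
  choose n σ hdat using hdat
  have hVp : ∀ q ∈ V, q.Prime ∧ Odd q := fun q hq =>
    ⟨((hV q).1 hq).1.1, inert_odd ((hV q).1 hq).1⟩
  obtain ⟨w₀, hw₀odd, hw₀⟩ := choose_ref V hVp n σ (fun q hq => ⟨(hdat q hq).1, (hdat q hq).2.1⟩)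
  have hw₀0 : w₀ ≠ 0 := by rintro h; rw [h] at hw₀odd; exact absurd hw₀odd (by decide)
  -- the new indices
  obtain ⟨bit, hbit⟩ : ∃ bit : ℕ → J → Prop, ∀ q j, bit q j ↔ τ (fun k => Dv q (m k)) j :=
    ⟨fun q j => τ (fun k => Dv q (m k)) j, fun q j => Iff.rfl⟩
  obtain ⟨S, hS⟩ : ∃ S : J → Finset ℕ, ∀ j q, q ∈ S j ↔ q ∈ V ∧ bit q j :=
    ⟨fun j => V.filter (fun q => bit q j), fun j q => Finset.mem_filter⟩
  obtain ⟨M, hM⟩ : ∃ M : J → ℕ, ∀ j, M j = w₀ * ∏ q ∈ S j, q ^ (2 * σ q) := ⟨_, fun j => rfl⟩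
  have hSodd : ∀ j, Odd (∏ q ∈ S j, q ^ (2 * σ q)) := fun j =>
    odd_prod_pow (S j) (fun q hq => (hVp q ((hS j q).1 hq).1).2) _
  have hMp : ∀ j, ∏ q ∈ S j, q ^ (2 * σ q) ≠ 0 := by
    intro j h; have := hSodd j; rw [h] at this; exact absurd this (by decide)
  have hMo : ∀ j, Odd (M j) := fun j => by rw [hM]; exact hw₀odd.mul (hSodd j)
  have hM0 : ∀ j, M j ≠ 0 := by
    intro j h; have := hMo j; rw [h] at this; exact absurd this (by decide)
  have hvP : ∀ j (r : ℕ), r.Prime → padicValNat r (∏ q ∈ S j, q ^ (2 * σ q)) =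
      if r ∈ S j then 2 * σ r else 0 := fun j r hr =>
    vprod (S j) (fun q hq => (hVp q ((hS j q).1 hq).1).1) _ hr
  have hvM : ∀ j (r : ℕ), r.Prime → padicValNat r (M j) =
      padicValNat r w₀ + if r ∈ S j then 2 * σ r else 0 := by
    intro j r hr
    have hf : Fact r.Prime := ⟨hr⟩
    rw [hM, padicValNat.mul hw₀0 (hMp j), hvP j r hr]
  -- valuations at the primes of `V`
  have hvV : ∀ j, ∀ q ∈ V, Dv q (M j : ℤ) ∧
      hv q (M j : ℤ) = hv q w₀ - if q ∈ S j then 2 * (σ q : ℤ) else 0 := by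
    intro j q hq
    have hp := (hVp q hq).1
    have ho := (hdat q hq).1
    have hd : Dv q (w₀ : ℤ) := (ho.2 _).2 (by exact_mod_cast (hw₀ q hq).1)
    have hd' : Dv q (M j : ℤ) := (ho.2 _).2 (by
      rw [hM]; exact_mod_cast (hw₀ q hq).1.mul_right _)
    refine ⟨hd', ?_⟩
    have e : ((M j : ℕ) : ℤ) = (w₀ : ℤ) * ((∏ q ∈ S j, q ^ (2 * σ q) : ℕ) : ℤ) := by
      rw [hM, Nat.cast_mul]
    rw [e, hv_mul hp (by exact_mod_cast hw₀0) hd (by exact_mod_cast hMp j), valInt_nat,
      hvP j q hp]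
    split_ifs <;> push_cast <;> ring
  have hix : ∀ j, ∃ s', Ix (M j : ℤ) s' := fun j => ix_exists (by exact_mod_cast hMo j)
  choose s' hs' using hix
  refine ⟨fun j => (M j : ℤ), s', hs', ⟨fun j => ix_quart (hs' j), ?_⟩, ⟨fun j => (hs' j).1, ?_⟩⟩
  · -- the checks
    intro U
    have hunit := fun l => litV_unit (w := w) (U := U) hs hs' hz l
    refine chk_complete _ _ _ (hs U).ne (val2_ix (hs U)) (val3_ix (hs U)) ?_ ?_
    · rintro (j | c)
      · refine ⟨one_div_ne_zero (hs' j).ne, ?_⟩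
        have hf : Fact (Nat.Prime 2) := ⟨Nat.prime_two⟩
        change padicValRat 2 (1 / s' j) = 0
        rw [padicValRat.div one_ne_zero (hs' j).ne, padicValRat.one, val2_ix (hs' j)]; rfl
      · exact (G c).val2 hunit
    · intro q hq hq3 hneg hodd
      have hf : Fact q.Prime := ⟨hq.1⟩
      have hdU : Dv q (m U) := (ix_dv (hs U) hq.1).2 hneg
      have hqV : q ∈ V := (hV q).2 ⟨hq, U, hdU, by rw [ix_hv (hs U) hq.1]; exact hodd⟩
      obtain ⟨ho, hno, hσ, hcons, hA⟩ := hdat q hqV
      obtain ⟨hw1, hw2, hw3⟩ := hw₀ q hqV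
      have hvU : padicValRat q (s U) = -σ q := by
        rw [← ix_hv (hs U) hq.1]; exact hcons U hdU
      obtain ⟨hG, hwbit⟩ := hτ _ hA
      have hwS : q ∉ S w := by
        intro h
        exact hwbit ((hbit q w).1 ((hS w q).1 h).2)
      have hsj : ∀ j, padicValRat q (s' j) = hv q w₀ - if q ∈ S j then 2 * (σ q : ℤ) else 0 := by
        intro j
        rw [← ix_hv (hs' j) hq.1]; exact (hvV j q hqV).2
      rintro (j | c)
      · change -padicValRat q (s U) ≤ padicValRat q (1 / s' j)
        rw [padicValRat.div one_ne_zero (hs' j).ne, padicValRat.one, hvU, hsj]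
        split_ifs <;> omega
      · change -padicValRat q (s U) ≤ padicValRat q ((G c).val _)
        rw [hvU, neg_neg]
        refine (G c).val_complete hq (fun l => (hunit l).1) (by exact_mod_cast hσ) ?_
        refine Fm.holds_mono ?_ _ (hG c)
        intro l hl
        cases l with
        | rd k =>
          have h1 : padicValRat q (s k) = -σ q := by
            rw [← ix_hv (hs k) hq.1]; exact hcons k hl
          change (σ q : ℤ) ≤ padicValRat q (1 / s k)
          rw [padicValRat.div one_ne_zero (hs k).ne, padicValRat.one, h1]; omega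
        | nrd k =>
          have h1 : ¬ padicValRat q (s k) < 0 := fun h => hl ((ix_dv (hs k) hq.1).2 h)
          change (σ q : ℤ) ≤ padicValRat q (s k / s U)
          rw [padicValRat.div (hs k).ne (hs U).ne, hvU]; omega
        | one j =>
          have h1 : q ∈ S j := (hS j q).2 ⟨hqV, (hbit q j).2 hl⟩
          change (σ q : ℤ) ≤ padicValRat q (s U * s' w / s' j)
          rw [padicValRat.div (mul_ne_zero (hs U).ne (hs' w).ne) (hs' j).ne,
            padicValRat.mul (hs U).ne (hs' w).ne, hvU, hsj, hsj, if_pos h1, if_neg hwS]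
          omega
        | zero j =>
          have h1 : q ∉ S j := fun h => hl ((hbit q j).1 ((hS j q).1 h).2)
          change (σ q : ℤ) ≤ padicValRat q (s' j / (s' w * s U))
          rw [padicValRat.div (hs' j).ne (mul_ne_zero (hs' w).ne (hs U).ne),
            padicValRat.mul (hs' w).ne (hs U).ne, hvU, hsj, hsj, if_neg h1, if_neg hwS]
          omega
        | par x =>
          have h1 : z x = 1 := hl
          change (σ q : ℤ) ≤ padicValRat q (z x / s U + (1 - z x))
          rw [h1, sub_self, add_zero, padicValRat.div one_ne_zero (hs U).ne, padicValRat.one, hvU]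
          omega
        | npar x =>
          have h1 : z x = 0 := hl
          change (σ q : ℤ) ≤ padicValRat q ((1 - z x) / s U + z x)
          rw [h1, sub_zero, add_zero, padicValRat.div one_ne_zero (hs U).ne, padicValRat.one, hvU]
          omega
  · -- the new family is honest
    intro U Q hQ hdQ hoddQ
    have hf : Fact Q.Prime := ⟨hQ.1⟩
    have hQV : Q ∉ V := by
      intro h
      have h1 := (hvV U Q h).2
      rw [h1] at hoddQ
      have h2 := (hw₀ Q h).2.2
      obtain ⟨c, hc⟩ := h2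
      obtain ⟨c', hc'⟩ := hoddQ
      split_ifs at hc' <;> omega
    have hQS : ∀ j, Q ∉ S j := fun j h => hQV ((hS j Q).1 h).1
    obtain ⟨N, hN⟩ := exists_Ord hQ.1 (hs' U).m_ne hdQ
    have hvQ : ∀ j, padicValNat Q (M j) = padicValNat Q w₀ := by
      intro j
      rw [hvM j Q hQ.1, if_neg (hQS j), add_zero]
    refine ⟨?_, ?_⟩
    · intro k hk
      rw [hv_ord hQ.1 hN (hs' k).m_ne hk, hv_ord hQ.1 hN (hs' U).m_ne hdQ, valInt_nat, valInt_nat,
        hvQ, hvQ]
    · refine ⟨{β | ∃ q ∈ V, padicValNat q w₀ < padicValNat q N ∧ β = fun k => Dv q (m k)}, ?_, ?_⟩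
      · rintro β ⟨q, hq, -, rfl⟩
        exact (hdat q hq).2.2.2.2
      · have hNU : N ∣ M U := by exact_mod_cast (hN.2 _).1 hdQ
        have hleU : ∀ r : ℕ, r.Prime → padicValNat r N ≤ padicValNat r (M U) := by
          intro r hr
          have hfr : Fact r.Prime := ⟨hr⟩
          exact (padicValNat_dvd_iff_le (hM0 U)).1 (pow_padicValNat_dvd.trans hNU)
        intro k
        constructor
        · rintro hk β ⟨q, hq, hlt, rfl⟩
          have hNk : N ∣ M k := by exact_mod_cast (hN.2 _).1 hk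
          have hfq : Fact q.Prime := ⟨(hVp q hq).1⟩
          have h1 : padicValNat q N ≤ padicValNat q (M k) :=
            (padicValNat_dvd_iff_le (hM0 k)).1 (pow_padicValNat_dvd.trans hNk)
          rw [hvM k q (hVp q hq).1] at h1
          by_contra hcon
          have h2 : q ∉ S k := fun h => hcon ((hbit q k).1 ((hS k q).1 h).2)
          rw [if_neg h2] at h1
          omega
        · intro h
          have hdvd : N ∣ M k := by
            rw [← Nat.factorization_prime_le_iff_dvd hN.1.ne' (hM0 k)]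
            intro r hr
            rw [Nat.factorization_def _ hr, Nat.factorization_def _ hr]
            have hU := hleU r hr
            rw [hvM U r hr] at hU
            rw [hvM k r hr]
            by_cases hrV : r ∈ V
            · by_cases hlt : padicValNat r w₀ < padicValNat r N
              · have h1 : r ∈ S k := (hS k r).2 ⟨hrV, (hbit r k).2 (h _ ⟨r, hrV, hlt, rfl⟩)⟩
                rw [if_pos h1]
                split_ifs at hU <;> omega
              · omega
            · have h1 : r ∉ S U := fun h => hrV ((hS U r).1 h).1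
              rw [if_neg h1] at hU
              omega
          exact (hN.2 _).2 (by exact_mod_cast hdvd)

end Vale.Agent.P027.N
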