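import Vale.Agent.P027.N.Siz2

/-! The whole system: explicit elementary equations, and a polynomial bound for their number. -/

set_option linter.all false

namespace Vale.Agent.P027.N

open Vale.Agent.P027 Vale.Agent.P027.Q

variable {α β : Type} {c d : ℕ}

namespace SD

/-- size bound for the whole system -/
def sysC (n k L M : ℕ) : ℕ :=
  (L * stpC (4 * n + 2) (4 * n + 2) (4 * n + 1) 11 +
      (4 * n * 300 + 80 + stpC (4 * n + 1) (4 * n + 2) (4 * n + 1) 11)) +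
    (stpC (4 * n + 2) (4 * n + 2 + 4 * k) (4 * n + 1 + 2 * k) (n * 8 + 10) +
      stpC (4 * n + 2 + 4 * k) 1 1 (M + n * 24 + k * 8 + 20))

/-- the whole system -/
def sys {p k : ℕ} (L : ℕ) (ψ : Fm (Vr p (2 ^ (L + 1)) k × Bool)) :
    SD (Fin p) (sysC (2 ^ (L + 1)) k L ψ.size) (fun z => Sys L ψ z) := by
  let n := 2 ^ (L + 1)
  have h1 : SD (Fin p ⊕ Ia n) (L * stpC (4 * n + 2) (4 * n + 2) (4 * n + 1) 11 +
      (4 * n * 300 + 80 + stpC (4 * n + 1) (4 * n + 2) (4 * n + 1) 11))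
      (fun v => Lvl n (fun x => v (.inl x)) L (fun i => v (.inr i))) := lvl n L
  have h3 : SD ((Fin p ⊕ Ia n) ⊕ Ic n k) (stpC (4 * n + 2 + 4 * k) 1 1
      (ψ.size + n * 24 + k * 8 + 20))
      (fun v => ∃ s'' : Unit → ℚ, Stp () (G3 ψ) (fun x => v (.inl (.inl x)))
        (fun i => v (.inr i)) s'') := by
    refine SD.exs (S := fun (v : (Fin p ⊕ Ia n) ⊕ Ic n k → ℚ) (s'' : Unit → ℚ) =>
      Stp () (G3 ψ) (fun x => v (.inl (.inl x))) (fun i => v (.inr i)) s'') ?_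
    refine (stp () (G3 ψ) (ψ.size + n * 24 + k * 8 + 20) (fun c => size_G3 ψ c)
      (fun i => (Sum.inl (Sum.inr i) : ((Fin p ⊕ Ia n) ⊕ Ic n k) ⊕ Unit)) (fun j => .inr j)
      (fun x => .inl (.inl (.inl x)))).mono ?_
    simp only [En.n_fin, En.n_sum, En.n_prod, En.n_bool, En.n_option, En.n_unit]
    have e1 : 2 + 2 * (2 * n) + 2 * (2 * k) = 4 * n + 2 + 4 * k := by ring
    rw [e1]
  have h2 : SD (Fin p ⊕ Ia n) (stpC (4 * n + 2) (4 * n + 2 + 4 * k) (4 * n + 1 + 2 * k)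
      (n * 8 + 10) + stpC (4 * n + 2 + 4 * k) 1 1 (ψ.size + n * 24 + k * 8 + 20))
      (fun v => ∃ s' : Ic n k → ℚ, Stp (Sum.inl (Sum.inl false)) G2 (fun x => v (.inl x))
        (fun i => v (.inr i)) s' ∧ ∃ s'' : Unit → ℚ, Stp () (G3 ψ) (fun x => v (.inl x))
        s' s'') := by
    refine SD.exs (S := fun (v : Fin p ⊕ Ia n → ℚ) (s' : Ic n k → ℚ) =>
      Stp (Sum.inl (Sum.inl false)) G2 (fun x => v (.inl x)) (fun i => v (.inr i)) s' ∧ ∃ s'' : Unit → ℚ,
        Stp () (G3 ψ) (fun x => v (.inl x)) s' s'') ?_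
    refine SD.and (SD.mono (stp (Sum.inl (Sum.inl false)) (G2 (n := n) (k := k)) (n * 8 + 10)
      (fun c => size_G2 c)
      (fun i => (Sum.inl (Sum.inr i) : (Fin p ⊕ Ia n) ⊕ Ic n k)) (fun j => .inr j)
      (fun x => .inl (.inl x))) ?_) h3
    simp only [En.n_fin, En.n_sum, En.n_prod, En.n_bool, En.n_option, En.n_unit]
    have e1 : 2 + 2 * (2 * n) + 2 * (2 * k) = 4 * n + 2 + 4 * k := by ring
    have e2 : 2 + 2 * (2 * n) = 4 * n + 2 := by ring
    have e3 : 2 * (2 * n) + 1 + 2 * k = 4 * n + 1 + 2 * k := by ring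
    rw [e1, e2, e3]
  exact (SD.exs (S := fun z (s : Ia n → ℚ) => Lvl n z L s ∧
    ∃ s' : Ic n k → ℚ, Stp (Sum.inl (Sum.inl false)) G2 z s s' ∧
      ∃ s'' : Unit → ℚ, Stp () (G3 ψ) z s' s'') (h1.and h2)).congr (fun v => Iff.rfl)

/-! ### Finitely many unknowns -/

end SD

/-- the unknowns that occur in an equation -/
def Eqn.unk : Eqn (α ⊕ ℕ) → List ℕ
  | .one a => (a.elim (fun _ => []) (fun n => [n]))
  | .add a b c => (a.elim (fun _ => []) (fun n => [n])) ++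
      ((b.elim (fun _ => []) (fun n => [n])) ++ (c.elim (fun _ => []) (fun n => [n])))
  | .mul a b c => (a.elim (fun _ => []) (fun n => [n])) ++
      ((b.elim (fun _ => []) (fun n => [n])) ++ (c.elim (fun _ => []) (fun n => [n])))

lemma Eqn.unk_len (e : Eqn (α ⊕ ℕ)) : e.unk.length ≤ 3 := by
  have h : ∀ a : α ⊕ ℕ, (a.elim (fun _ => []) (fun n => [n]) : List ℕ).length ≤ 1 := by
    intro a; rcases a with a | a <;> simp
  cases e with
  | one a => exact (h a).trans (by norm_num)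
  | add a b c =>
    simp only [Eqn.unk, List.length_append]
    have := h a; have := h b; have := h c; omega
  | mul a b c =>
    simp only [Eqn.unk, List.length_append]
    have := h a; have := h b; have := h c; omega

lemma Eqn.holds_unk (e : Eqn (α ⊕ ℕ)) (v : α → ℚ) {y z : ℕ → ℚ} (h : ∀ n ∈ e.unk, y n = z n) :
    e.Holds (Sum.elim v y) ↔ e.Holds (Sum.elim v z) := by
  have h1 : ∀ a : α ⊕ ℕ, (∀ n ∈ (a.elim (fun _ => []) (fun n => [n]) : List ℕ), y n = z n) →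
      Sum.elim v y a = Sum.elim v z a := by
    intro a ha
    rcases a with a | a
    · rfl
    · exact ha a (by simp)
  cases e with
  | one a => simp only [Eqn.Holds, h1 a h]
  | add a b c =>
    simp only [Eqn.Holds, h1 a (fun n hn => h n (by simp only [Eqn.unk, List.mem_append]; tauto)),
      h1 b (fun n hn => h n (by simp only [Eqn.unk, List.mem_append]; tauto)),
      h1 c (fun n hn => h n (by simp only [Eqn.unk, List.mem_append]; tauto))]
  | mul a b c =>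
    simp only [Eqn.Holds, h1 a (fun n hn => h n (by simp only [Eqn.unk, List.mem_append]; tauto)),
      h1 b (fun n hn => h n (by simp only [Eqn.unk, List.mem_append]; tauto)),
      h1 c (fun n hn => h n (by simp only [Eqn.unk, List.mem_append]; tauto))]

/-- all unknowns of a list of equations -/
def unks (L : List (Eqn (α ⊕ ℕ))) : List ℕ := L.flatMap Eqn.unk

lemma unks_len (L : List (Eqn (α ⊕ ℕ))) : (unks L).length ≤ 3 * L.length := by
  induction L with
  | nil => simp [unks]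
  | cons e L ih =>
    simp only [unks, List.flatMap_cons, List.length_append, List.length_cons] at ih ⊢
    have := e.unk_len
    omega

/-- renumbering of the unknowns -/
def renum (V : List ℕ) (n : ℕ) : Fin (V.length + 1) :=
  ⟨V.idxOf n, Nat.lt_succ_of_le List.idxOf_le_length⟩

/-- the system with finitely many unknowns -/
def finSys (L : List (Eqn (α ⊕ ℕ))) : List (Eqn (α ⊕ Fin ((unks L).length + 1))) :=
  L.map (Eqn.map (Sum.map id (renum (unks L))))

theorem finSys_spec (L : List (Eqn (α ⊕ ℕ))) (v : α → ℚ) :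
    (∃ y : Fin ((unks L).length + 1) → ℚ, ∀ e ∈ finSys L, e.Holds (Sum.elim v y)) ↔
      ∃ y : ℕ → ℚ, ∀ e ∈ L, e.Holds (Sum.elim v y) := by
  constructor
  · rintro ⟨y, hy⟩
    refine ⟨fun n => y (renum (unks L) n), fun e he => ?_⟩
    have := hy _ (List.mem_map_of_mem he)
    rw [Eqn.holds_map] at this
    refine (Eqn.holds_congr e ?_).1 this
    funext i; rcases i with i | i <;> rfl
  · rintro ⟨y, hy⟩
    refine ⟨fun i => y ((unks L).getD i 0), fun e he => ?_⟩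
    obtain ⟨e', he', rfl⟩ := List.mem_map.1 he
    rw [Eqn.holds_map]
    have h1 := hy e' he'
    rw [← Eqn.holds_unk e' v (y := fun n => y ((unks L).getD (renum (unks L) n) 0))] at h1
    · refine (Eqn.holds_congr e' ?_).1 h1
      funext i; rcases i with i | i <;> rfl
    · intro n hn
      have hn' : n ∈ unks L := List.mem_flatMap.2 ⟨e', he', hn⟩
      have hlt : (unks L).idxOf n < (unks L).length := List.idxOf_lt_length_iff.2 hn'
      show y ((unks L).getD ((unks L).idxOf n) 0) = y n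
      rw [List.getD_eq_getElem _ _ hlt, List.getElem_idxOf]

theorem SD.fin {S : (α → ℚ) → Prop} (h : SD α c S) :
    ∃ (N : ℕ) (E : List (Eqn (α ⊕ Fin N))), N ≤ 3 * c + 1 ∧ E.length ≤ c ∧
      ∀ v, S v ↔ ∃ y : Fin N → ℚ, ∀ e ∈ E, e.Holds (Sum.elim v y) := by
  refine ⟨(unks h.L).length + 1, finSys h.L, ?_, ?_, fun v => ?_⟩
  · have h1 := unks_len h.L
    have h2 := h.len
    omega
  · simpa [finSys] using h.len
  · rw [finSys_spec, h.spec]

/-! ### The bound -/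

lemma stpC_mono {a b c d a' b' c' d' : ℕ} (h1 : a ≤ a') (h2 : b ≤ b') (h3 : c ≤ c')
    (h4 : d ≤ d') : SD.stpC a b c d ≤ SD.stpC a' b' c' d' := by
  unfold SD.stpC
  gcongr

lemma sysC_le {k L M : ℕ} (hM : 1 ≤ M) :
    SD.sysC (2 ^ (L + 1)) k L M ≤ 1000000 * (2 ^ (L + 1) + k + M) ^ 3 := by
  have hn : L < 2 ^ (L + 1) := lt_trans (Nat.lt_succ_self L) (Nat.lt_two_pow_self)
  generalize 2 ^ (L + 1) = n at hn ⊢
  obtain ⟨T, hT⟩ : ∃ T, T = n + k + M := ⟨_, rfl⟩
  rw [← hT]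
  have hn1 : 1 ≤ n := by omega
  have hT1 : 1 ≤ T := by omega
  have e1 : SD.stpC (4 * n + 2) (4 * n + 2) (4 * n + 1) 11 ≤ SD.stpC (6 * T) (6 * T) (5 * T) 11 :=
    stpC_mono (by omega) (by omega) (by omega) le_rfl
  have e2 : SD.stpC (4 * n + 1) (4 * n + 2) (4 * n + 1) 11 ≤ SD.stpC (6 * T) (6 * T) (5 * T) 11 :=
    stpC_mono (by omega) (by omega) (by omega) le_rfl
  have e3 : SD.stpC (4 * n + 2) (4 * n + 2 + 4 * k) (4 * n + 1 + 2 * k) (n * 8 + 10) ≤
      SD.stpC (6 * T) (6 * T) (5 * T) (18 * T) :=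
    stpC_mono (by omega) (by omega) (by omega) (by omega)
  have e4 : SD.stpC (4 * n + 2 + 4 * k) 1 1 (M + n * 24 + k * 8 + 20) ≤
      SD.stpC (6 * T) 1 1 (44 * T) :=
    stpC_mono (by omega) le_rfl le_rfl (by omega)
  have e0 : L * SD.stpC (4 * n + 2) (4 * n + 2) (4 * n + 1) 11 ≤
      T * SD.stpC (6 * T) (6 * T) (5 * T) 11 := Nat.mul_le_mul (by omega) e1
  have p1 : T ≤ T ^ 3 := by nlinarith [Nat.one_le_iff_ne_zero.1 hT1, sq_nonneg T]
  have p2 : T ^ 2 ≤ T ^ 3 := by nlinarith [sq_nonneg T]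
  have q1 : T * SD.stpC (6 * T) (6 * T) (5 * T) 11 = 612 * T ^ 2 + 1824 * T ^ 2 +
      6 * 11 * 1309 * T ^ 3 := by unfold SD.stpC; ring
  have q2 : SD.stpC (6 * T) (6 * T) (5 * T) 11 = 612 * T + 1824 * T +
      6 * 11 * 1309 * T ^ 2 := by unfold SD.stpC; ring
  have q3 : SD.stpC (6 * T) (6 * T) (5 * T) (18 * T) = 612 * T + 1824 * T +
      6 * 11 * (1800 * T ^ 3 + 209 * T ^ 2) := by unfold SD.stpC; ring
  have q4 : SD.stpC (6 * T) 1 1 (44 * T) = 102 + 1824 * T +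
      12 * (4400 * T ^ 2 + 209 * T) := by unfold SD.stpC; ring
  unfold SD.sysC
  have hn2 : 4 * n * 300 + 80 ≤ 1280 * T := by omega
  have := hT1
  have p0 : 1 ≤ T ^ 3 := le_trans hT1 p1
  omega

/-- N5: the whole system as a list of elementary equations of polynomial size -/
theorem sys_size {p k : ℕ} (L : ℕ) (ψ : Fm (Vr p (2 ^ (L + 1)) k × Bool)) :
    ∃ (N : ℕ) (E : List (Eqn (Fin p ⊕ Fin N))),
      N ≤ 3000001 * (2 ^ (L + 1) + k + ψ.size) ^ 3 ∧
      E.length ≤ 1000000 * (2 ^ (L + 1) + k + ψ.size) ^ 3 ∧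
      ∀ z : Fin p → ℚ, Sys L ψ z ↔ ∃ y : Fin N → ℚ, ∀ e ∈ E, e.Holds (Sum.elim z y) := by
  obtain ⟨N, E, h1, h2, h3⟩ := (SD.sys L ψ).fin
  have hs : 1 ≤ ψ.size := by cases ψ <;> simp [Fm.size]
  have hb := sysC_le (k := k) (L := L) hs
  have hp : 1 ≤ (2 ^ (L + 1) + k + ψ.size) ^ 3 := Nat.one_le_pow _ _ (lt_of_lt_of_le hs (Nat.le_add_left _ _))
  exact ⟨N, E, by omega, by omega, h3⟩

end Vale.Agent.P027.N
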