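import Vale.Agent.P027.N.Defs

set_option linter.all false

/-! Gates, formulas and checks (module N1). -/

namespace Vale.Agent.P027.N

open Vale.Agent.P027 Vale.Agent.P027.Q

lemma gAnd_ne {x y : ℚ} (hx : x ≠ 0) : gAnd x y ≠ 0 := by
  intro h
  unfold gAnd at h
  by_cases hy : y = 0
  · subst hy
    apply hx
    have : x ^ 2 = 0 := by linarith
    exact pow_eq_zero_iff (by norm_num) |>.1 this
  · exact not_isSquare_two ⟨x / y, by field_simp; linarith⟩

lemma gOr_den_ne {x y : ℚ} (hy : y ≠ 0) : y ^ 2 - 2 * x ^ 2 ≠ 0 := gAnd_ne hy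

lemma gOr_ne {x y : ℚ} (hx : x ≠ 0) (hy : y ≠ 0) : gOr x y ≠ 0 := by
  unfold gOr
  exact div_ne_zero (mul_ne_zero (pow_ne_zero _ hx) (pow_ne_zero _ hy)) (gOr_den_ne hy)

section inert

variable {q : ℕ}

lemma val_gAnd_le (hq : Inert q) {x y : ℚ} (hx : x ≠ 0) (hy : y ≠ 0)
    (h : padicValRat q x ≤ padicValRat q y) :
    padicValRat q (x ^ 2 - 2 * y ^ 2) = 2 * padicValRat q x ∧
    padicValRat q (y ^ 2 - 2 * x ^ 2) = 2 * padicValRat q x := by
  have : Fact q.Prime := ⟨hq.1⟩
  have hq1 : (1 : ℚ) < q := by exact_mod_cast hq.1.one_lt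
  have hle : padicNorm q y ≤ padicNorm q x := by
    rw [padicNorm.eq_zpow_of_nonzero hx, padicNorm.eq_zpow_of_nonzero hy]
    exact zpow_le_zpow_right₀ hq1.le (by omega)
  have hsq : padicNorm q y ^ 2 ≤ padicNorm q x ^ 2 :=
    pow_le_pow_left₀ (padicNorm.nonneg _) hle 2
  have hpow : padicValRat q (x ^ 2) = 2 * padicValRat q x := by
    rw [padicValRat.pow]; norm_num
  have n1 : x ^ 2 - 2 * y ^ 2 ≠ 0 := gAnd_ne hx
  have n2 : y ^ 2 - 2 * x ^ 2 ≠ 0 := gAnd_ne hy
  constructor
  · rw [← hpow, ← pn_eq_iff n1 (pow_ne_zero 2 hx), (NR_two hq.2).norm_form,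
      max_eq_left hsq, pn_sq]
  · rw [← hpow, ← pn_eq_iff n2 (pow_ne_zero 2 hx), (NR_two hq.2).norm_form,
      max_eq_right hsq, pn_sq]

lemma val_gAnd (hq : Inert q) {x y : ℚ} (hx : x ≠ 0) (hy : y ≠ 0) :
    padicValRat q (gAnd x y) = 2 * min (padicValRat q x) (padicValRat q y) := by
  unfold gAnd
  rcases le_total (padicValRat q x) (padicValRat q y) with h | h
  · rw [(val_gAnd_le hq hx hy h).1, min_eq_left h]
  · rw [(val_gAnd_le hq hy hx h).2, min_eq_right h]

lemma val_gOr (hq : Inert q) {x y : ℚ} (hx : x ≠ 0) (hy : y ≠ 0) :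
    padicValRat q (gOr x y) = 2 * max (padicValRat q x) (padicValRat q y) := by
  have : Fact q.Prime := ⟨hq.1⟩
  unfold gOr
  rw [padicValRat.div (mul_ne_zero (pow_ne_zero _ hx) (pow_ne_zero _ hy)) (gOr_den_ne hy),
    padicValRat.mul (pow_ne_zero _ hx) (pow_ne_zero _ hy), padicValRat.pow, padicValRat.pow]
  rcases le_total (padicValRat q x) (padicValRat q y) with h | h
  · rw [(val_gAnd_le hq hx hy h).2, max_eq_right h]; push_cast; ring
  · rw [(val_gAnd_le hq hy hx h).1, max_eq_left h]; push_cast; ring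

end inert

lemma val2_gAnd {x y : ℚ} (hx : x ≠ 0) (hx2 : padicValRat 2 x = 0) (hy : y ≠ 0)
    (hy2 : padicValRat 2 y = 0) : padicValRat 2 (gAnd x y) = 0 := by
  have h2 : padicValRat 2 (2 * y ^ 2) = 1 := by
    rw [padicValRat.mul (by norm_num) (pow_ne_zero _ hy), padicValRat.pow, hy2]
    have := vself Nat.prime_two
    push_cast at this
    rw [this]; norm_num
  have h1 : padicValRat 2 (x ^ 2) = 0 := by rw [padicValRat.pow, hx2]; norm_num
  have h3 : padicValRat 2 (-(2 * y ^ 2)) = 1 := by rw [padicValRat.neg, h2]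
  unfold gAnd
  rw [sub_eq_add_neg, padicValRat.add_eq_of_lt (by rw [← sub_eq_add_neg]; exact gAnd_ne hx)
    (pow_ne_zero _ hx) (neg_ne_zero.2 (mul_ne_zero (by norm_num) (pow_ne_zero _ hy)))
    (by rw [h1, h3]; norm_num), h1]

lemma val2_gOr {x y : ℚ} (hx : x ≠ 0) (hx2 : padicValRat 2 x = 0) (hy : y ≠ 0)
    (hy2 : padicValRat 2 y = 0) : padicValRat 2 (gOr x y) = 0 := by
  have h := val2_gAnd hy hy2 hx hx2
  unfold gAnd at h
  unfold gOr
  rw [padicValRat.div (mul_ne_zero (pow_ne_zero _ hx) (pow_ne_zero _ hy)) (gOr_den_ne hy),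
    padicValRat.mul (pow_ne_zero _ hx) (pow_ne_zero _ hy), padicValRat.pow, padicValRat.pow,
    hx2, hy2, h]
  norm_num

/-! ### Formulas -/

section Fm

variable {α : Type}

lemma Fm.val_ne {t : α → ℚ} (ht : ∀ a, t a ≠ 0) (f : Fm α) : f.val t ≠ 0 := by
  induction f with
  | lit a => exact ht a
  | and f g hf hg => exact gAnd_ne hf
  | or f g hf hg => exact gOr_ne hf hg

lemma Fm.val2 {t : α → ℚ} (ht : ∀ a, t a ≠ 0 ∧ padicValRat 2 (t a) = 0) (f : Fm α) :
    f.val t ≠ 0 ∧ padicValRat 2 (f.val t) = 0 := by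
  induction f with
  | lit a => exact ht a
  | and f g hf hg => exact ⟨gAnd_ne hf.1, val2_gAnd hf.1 hf.2 hg.1 hg.2⟩
  | or f g hf hg => exact ⟨gOr_ne hf.1 hg.1, val2_gOr hf.1 hf.2 hg.1 hg.2⟩

lemma Fm.holds_mono {P Q : α → Prop} (h : ∀ a, P a → Q a) (f : Fm α) (hf : f.holds P) :
    f.holds Q := by
  induction f with
  | lit a => exact h a hf
  | and f g ihf ihg => exact ⟨ihf hf.1, ihg hf.2⟩
  | or f g ihf ihg => exact hf.elim (fun h => Or.inl (ihf h)) (fun h => Or.inr (ihg h))

/-- soundness of the gates -/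
lemma Fm.val_sound {q : ℕ} (hq : Inert q) {t : α → ℚ} (ht : ∀ a, t a ≠ 0) (f : Fm α)
    (h : 0 < padicValRat q (f.val t)) : f.holds (fun a => 0 < padicValRat q (t a)) := by
  induction f with
  | lit a => exact h
  | and f g ihf ihg =>
    have e := val_gAnd hq (f.val_ne ht) (g.val_ne ht)
    change 0 < padicValRat q (gAnd _ _) at h
    rw [e] at h
    have h1 := min_le_left (padicValRat q (f.val t)) (padicValRat q (g.val t))
    have h2 := min_le_right (padicValRat q (f.val t)) (padicValRat q (g.val t))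
    exact ⟨ihf (by omega), ihg (by omega)⟩
  | or f g ihf ihg =>
    have e := val_gOr hq (f.val_ne ht) (g.val_ne ht)
    change 0 < padicValRat q (gOr _ _) at h
    rw [e] at h
    rcases le_total (padicValRat q (f.val t)) (padicValRat q (g.val t)) with h1 | h1
    · rw [max_eq_right h1] at h; exact Or.inr (ihg (by omega))
    · rw [max_eq_left h1] at h; exact Or.inl (ihf (by omega))

/-- completeness of the gates -/
lemma Fm.val_complete {q : ℕ} (hq : Inert q) {t : α → ℚ} (ht : ∀ a, t a ≠ 0) {σ : ℤ}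
    (hσ : 0 < σ) (f : Fm α) (h : f.holds (fun a => σ ≤ padicValRat q (t a))) :
    σ ≤ padicValRat q (f.val t) := by
  induction f with
  | lit a => exact h
  | and f g ihf ihg =>
    have e := val_gAnd hq (f.val_ne ht) (g.val_ne ht)
    change σ ≤ padicValRat q (gAnd _ _)
    rw [e]
    have h1 := ihf h.1
    have h2 := ihg h.2
    have h3 := le_min h1 h2
    omega
  | or f g ihf ihg =>
    have e := val_gOr hq (f.val_ne ht) (g.val_ne ht)
    change σ ≤ padicValRat q (gOr _ _)
    rw [e]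
    have h3 : σ ≤ max (padicValRat q (f.val t)) (padicValRat q (g.val t)) := by
      rcases h with h | h
      · exact le_max_of_le_left (ihf h)
      · exact le_max_of_le_right (ihg h)
    omega

end Fm

/-! ### Checks -/

lemma sq_cases {b s : ℚ} (h : (b ^ 2 - s ^ 2) * (b ^ 2 - 9 * s ^ 2) = 0) :
    b = s ∨ b = -s ∨ b = 3 * s ∨ b = -(3 * s) := by
  rcases mul_eq_zero.1 h with h | h
  · rcases sq_eq_sq_iff_eq_or_eq_neg.1 (sub_eq_zero.1 h) with h | h
    · exact Or.inl h
    · exact Or.inr (Or.inl h)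
  · have h1 : b ^ 2 = (3 * s) ^ 2 := by linarith
    rcases sq_eq_sq_iff_eq_or_eq_neg.1 h1 with h | h
    · exact Or.inr (Or.inr (Or.inl h))
    · exact Or.inr (Or.inr (Or.inr h))

lemma val_three_ne {q : ℕ} (hq : q.Prime) (h3 : q ≠ 3) : padicValRat q (3 : ℚ) = 0 := by
  have := vnat_zero (p := q) (n := 3)
    (fun h => h3 ((Nat.prime_dvd_prime_iff_eq hq Nat.prime_three).1 h))
  exact_mod_cast this

lemma val_b {q : ℕ} (hq : q.Prime) (h3 : q ≠ 3) {b s : ℚ} (hs : s ≠ 0)
    (h : b = s ∨ b = -s ∨ b = 3 * s ∨ b = -(3 * s)) : padicValRat q b = padicValRat q s := by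
  have : Fact q.Prime := ⟨hq⟩
  have e : padicValRat q (3 * s) = padicValRat q s := by
    rw [padicValRat.mul (by norm_num) hs, val_three_ne hq h3, zero_add]
  rcases h with rfl | rfl | rfl | rfl
  · rfl
  · rw [padicValRat.neg]
  · exact e
  · rw [padicValRat.neg, e]

theorem chk_sound : StChkSound := by
  intro ι s t h q hq h3 hs hneg hodd i hti
  obtain ⟨b, a, hb, hcap, hcon⟩ := h
  have hb' := sq_cases hb
  have hv := val_b hq.1 h3 hs hb'
  have hbodd : Odd (padicValRat q b) := by rw [hv]; exact hodd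
  have : Fact q.Prime := ⟨hq.1⟩
  have hb0 : b ≠ 0 := by
    rintro rfl
    simp at hbodd
  have hr := gOr_ne hs hti
  rcases capture_sound hq hbodd hcap (hcon i) with h1 | h1
  · exact absurd h1 hr
  · rw [padicValRat.mul hb0 (pow_ne_zero _ hr), padicValRat.pow, hv, val_gOr hq hs hti] at h1
    push_cast at h1
    by_contra hcon
    push Not at hcon
    have h2 : max (padicValRat q s) (padicValRat q (t i)) ≤ 0 := max_le hneg.le hcon
    omega

/-- one of `s, -s, 3s, -3s` is three modulo eight -/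
lemma exists_three8 {s : ℚ} (hs : s ≠ 0) (h2 : padicValRat 2 s = 0) :
    ∃ b, Three8 b ∧ (b = s ∨ b = -s ∨ b = 3 * s ∨ b = -(3 * s)) := by
  have hf : Fact (Nat.Prime 2) := ⟨Nat.prime_two⟩
  -- numerator and denominator are odd
  have hd : s.den % 2 = 1 := by
    have := odd_den (p := 2) (r := s) (by rw [h2])
    omega
  have hn : s.num % 2 = 1 ∨ s.num % 2 = -1 := by
    have h3 : ¬ (2 : ℤ) ∣ s.num := by
      intro hdvd
      have h4 : padicValRat 2 s = padicValInt 2 s.num - padicValNat 2 s.den := rfl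
      have h5 : padicValNat 2 s.den = 0 := padicValNat.eq_zero_of_not_dvd (by omega)
      have h6 : padicValInt 2 s.num ≠ 0 := by
        intro h7
        rw [padicValInt, padicValNat.eq_zero_iff] at h7
        rcases h7 with h7 | h7 | h7
        · omega
        · exact hs (Rat.zero_of_num_zero (Int.natAbs_eq_zero.1 h7))
        · exact h7 (Int.natCast_dvd.1 (by exact_mod_cast hdvd))
      rw [h2, h5] at h4
      have : (padicValInt 2 s.num : ℤ) = 0 := by push_cast at h4; linarith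
      exact h6 (by exact_mod_cast this)
    omega
  have hdq : ((s.den : ℤ) : ℚ) ≠ 0 := by exact_mod_cast s.den_ne_zero
  have key : ∀ n : ℤ, (8 : ℤ) ∣ n - 3 * s.den → Three8 ((n : ℚ) / (s.den : ℤ)) := by
    intro n ⟨k, hk⟩
    unfold Three8
    have e : ((n : ℚ) / (s.den : ℤ) - 3) / 8 = (k : ℚ) / ((s.den : ℤ) : ℚ) := by
      have hk' : (n : ℚ) - 3 * ((s.den : ℤ) : ℚ) = 8 * k := by exact_mod_cast hk
      field_simp
      linarith
    rw [e]
    by_cases hk0 : k = 0
    · subst hk0; simp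
    · rw [padicValRat.div (by exact_mod_cast hk0) hdq]
      have h5 : padicValRat 2 ((s.den : ℤ) : ℚ) = 0 := by
        rw [Int.cast_natCast]
        exact vnat_zero (p := 2) (n := s.den) (by omega)
      rw [h5, sub_zero, padicValRat.of_int]
      exact Int.natCast_nonneg _
  have hse : s = (s.num : ℚ) / ((s.den : ℤ) : ℚ) := (Rat.num_div_den s).symm
  have h8 : (8 : ℤ) ∣ s.num - 3 * s.den ∨ (8 : ℤ) ∣ -s.num - 3 * s.den ∨
      (8 : ℤ) ∣ 3 * s.num - 3 * s.den ∨ (8 : ℤ) ∣ -(3 * s.num) - 3 * s.den := by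
    have e1 : (s.den : ℤ) % 8 = 1 ∨ (s.den : ℤ) % 8 = 3 ∨ (s.den : ℤ) % 8 = 5 ∨
      (s.den : ℤ) % 8 = 7 := by omega
    have e2 : s.num % 8 = 1 ∨ s.num % 8 = 3 ∨ s.num % 8 = 5 ∨ s.num % 8 = 7 := by omega
    rcases e1 with e1 | e1 | e1 | e1 <;> rcases e2 with e2 | e2 | e2 | e2 <;> omega
  rcases h8 with h | h | h | h
  · exact ⟨_, key _ h, Or.inl hse.symm⟩
  · refine ⟨_, key _ h, Or.inr (Or.inl ?_)⟩
    conv_rhs => rw [hse]
    push_cast; ring
  · refine ⟨_, key _ h, Or.inr (Or.inr (Or.inl ?_))⟩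
    conv_rhs => rw [hse]
    push_cast; ring
  · refine ⟨_, key _ h, Or.inr (Or.inr (Or.inr ?_))⟩
    conv_rhs => rw [hse]
    push_cast; ring

theorem chk_complete : StChkComplete := by
  intro ι _ s t hs h2 h3 ht hL
  obtain ⟨b, hb8, hb⟩ := exists_three8 hs h2
  have hfin : Fintype ι := Fintype.ofFinite ι
  obtain ⟨a, ha, hall⟩ := capture_complete hb8
    ((Finset.univ : Finset ι).toList.map (fun i => gOr s (t i))) (by
    intro r hr
    rw [List.mem_map] at hr
    obtain ⟨i, -, rfl⟩ := hr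
    refine ⟨(val2_gOr hs h2 (ht i).1 (ht i).2).ge, ?_⟩
    intro q hq hodd
    right
    have : Fact q.Prime := ⟨hq.1⟩
    have hr := gOr_ne hs (ht i).1
    have hb0 : b ≠ 0 := hb8.val.1
    rw [padicValRat.mul hb0 (pow_ne_zero _ hr), padicValRat.pow, val_gOr hq hs (ht i).1]
    have hmax := le_max_left (padicValRat q s) (padicValRat q (t i))
    have hmax' := le_max_right (padicValRat q s) (padicValRat q (t i))
    push_cast
    by_cases hq3 : q = 3
    · subst hq3
      have e : 0 ≤ padicValRat 3 b := by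
        have h33 : padicValRat 3 (3 * s) = 1 + padicValRat 3 s := by
          rw [padicValRat.mul (by norm_num) hs]
          have := vself Nat.prime_three
          push_cast at this
          rw [this]
        rcases hb with rfl | rfl | rfl | rfl
        · exact h3
        · rw [padicValRat.neg]; exact h3
        · rw [h33]; omega
        · rw [padicValRat.neg, h33]; omega
      omega
    · have hv := val_b hq.1 hq3 hs hb
      rw [hv] at hodd ⊢
      by_cases hneg : padicValRat q s < 0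
      · have := hL q hq hq3 hneg hodd i
        omega
      · push Not at hneg
        omega)
  refine ⟨b, a, ?_, ha, fun i => hall _ (by
    rw [List.mem_map]
    exact ⟨i, by simp, rfl⟩)⟩
  rcases hb with rfl | rfl | rfl | rfl <;> ring

end Vale.Agent.P027.N
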