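import Vale.Agent.P027.N.Val

set_option linter.all false

/-! Completeness of a step, first part: choice of the integers (module N4). -/

namespace Vale.Agent.P027.N

open Vale.Agent.P027 Vale.Agent.P027.Q

/-- every odd index has a value -/
theorem ix_exists {m : ℤ} (h : Odd m) : ∃ s, Ix m s := by
  obtain ⟨k, hk⟩ := h
  by_cases h0 : k = 0
  · subst h0
    refine ⟨1, ⟨0, by rw [hk]⟩, one_ne_zero, ?_⟩
    rw [hk]
    have := hasX_1
    norm_num at this ⊢
    exact this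
  by_cases h1 : k = -1
  · subst h1
    refine ⟨1, ⟨-1, by rw [hk]⟩, one_ne_zero, ?_⟩
    rw [hk]
    have := hasX_1.neg
    rw [← neg_zsmul] at this
    norm_num at this ⊢
    exact this
  have hk1 : k + 1 ≠ 0 := by omega
  have hm0 : m ≠ 0 := by omega
  obtain ⟨a, ha⟩ : ∃ a, a = xc ((k + 1) • P0) := ⟨_, rfl⟩
  obtain ⟨b, hb⟩ : ∃ b, b = xc (k • P0) := ⟨_, rfl⟩
  have hA : HasX ((k + 1) • P0) a := by rw [ha]; exact hasX_n hk1
  have hB : HasX (k • P0) b := by rw [hb]; exact hasX_n h0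
  have hne : a ≠ b := by
    intro hab
    rw [hab] at hA
    rcases hA.eq_or_neg hB with h5 | h5
    · have := zsmul_inj h5; omega
    · rw [← neg_zsmul] at h5
      have := zsmul_inj h5; omega
  obtain ⟨s, d, hs, hd, -, hprod⟩ := Q.hasX_add_sub hA hB hne
  have e1 : (k + 1) • P0 + k • P0 = m • P0 := by
    rw [← add_zsmul, hk]; congr 1; ring
  have e2 : (k + 1) • P0 - k • P0 = (1 : ℤ) • P0 := by
    rw [sub_eq_add_neg, ← sub_zsmul]; congr 1; ring
  rw [e1] at hs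
  rw [e2] at hd
  have hd1 : d = -1 := hd.unique hasX_1
  have hab : a - b ≠ 0 := sub_ne_zero.2 hne
  have hs1 : s = -((a * b + 7) / (a - b)) ^ 2 := by
    rw [hd1] at hprod
    rw [div_pow]
    field_simp
    linarith
  have hs0 : s ≠ 0 := by
    have := xc_ne_zero hm0
    rwa [xc_of_hasX hs] at this
  refine ⟨(a * b + 7) / (a - b), ⟨k, hk⟩, ?_, ?_⟩
  · intro h
    apply hs0
    rw [hs1, h]; norm_num
  · rw [← hs1]; exact hs

lemma dvd_den_of_neg {q : ℕ} (hq : q.Prime) {x : ℚ} (h : padicValRat q x < 0) : q ∣ x.den := by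
  have hf : Fact q.Prime := ⟨hq⟩
  by_contra hcon
  have h1 : padicValRat q x = padicValInt q x.num - padicValNat q x.den := rfl
  rw [padicValNat.eq_zero_of_not_dvd hcon] at h1
  have : (0 : ℤ) ≤ padicValInt q x.num := Int.natCast_nonneg _
  push_cast at h1
  omega

lemma fin_dv {m : ℤ} (hm : m ≠ 0) : {q : ℕ | q.Prime ∧ Dv q m}.Finite := by
  refine (Finset.finite_toSet (Finset.range ((xc (m • P0)).den + 1))).subset ?_
  rintro q ⟨hq, h⟩
  rcases h with h | h
  · exact absurd h hm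
  · have := Nat.le_of_dvd (xc (m • P0)).den_pos (dvd_den_of_neg hq h)
    simp only [Finset.coe_range, Set.mem_Iio]
    omega

lemma vprod (S : Finset ℕ) (hS : ∀ q ∈ S, q.Prime) (e : ℕ → ℕ) {r : ℕ} (hr : r.Prime) :
    padicValNat r (∏ q ∈ S, q ^ e q) = if r ∈ S then e r else 0 := by
  have hf : Fact r.Prime := ⟨hr⟩
  induction S using Finset.induction_on with
  | empty => simp
  | insert a S ha ih =>
    have hpa := hS a (Finset.mem_insert_self a S)
    have hne : ∏ q ∈ S, q ^ e q ≠ 0 := Finset.prod_ne_zero_iff.2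
      (fun q hq => pow_ne_zero _ (hS q (Finset.mem_insert_of_mem hq)).ne_zero)
    rw [Finset.prod_insert ha, padicValNat.mul (pow_ne_zero _ hpa.ne_zero) hne,
      ih (fun q hq => hS q (Finset.mem_insert_of_mem hq)), padicValNat.pow]
    by_cases hra : r = a
    · subst hra
      rw [padicValNat_self, if_neg ha, if_pos (Finset.mem_insert_self _ _)]
      ring
    · have hfa : Fact a.Prime := ⟨hpa⟩
      rw [padicValNat_primes hra]
      simp only [Finset.mem_insert, hra, false_or, mul_zero, zero_add]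

lemma odd_prod_pow (S : Finset ℕ) (hS : ∀ q ∈ S, Odd q) (e : ℕ → ℕ) :
    Odd (∏ q ∈ S, q ^ e q) :=
  Finset.prod_induction _ Odd (fun a b ha hb => ha.mul hb) odd_one
    (fun q hq => (hS q hq).pow)

lemma valInt_nat (q n : ℕ) : padicValInt q (n : ℤ) = padicValNat q n := by
  rw [padicValInt, Int.natAbs_natCast]

/-- the reference integer -/
theorem choose_ref (V : Finset ℕ) (hV : ∀ q ∈ V, q.Prime ∧ Odd q) (n σ : ℕ → ℕ)
    (hn : ∀ q ∈ V, Ord q (n q) ∧ Odd (n q)) :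
    ∃ w : ℕ, Odd w ∧ ∀ q ∈ V, n q ∣ w ∧ (σ q : ℤ) ≤ -hv q w ∧ Even (hv q w) := by
  classical
  obtain ⟨w₀, hw₀⟩ : ∃ w₀, w₀ = (∏ q ∈ V, n q) * ∏ q ∈ V, q ^ σ q := ⟨_, rfl⟩
  have hodd : Odd w₀ := by
    rw [hw₀]
    exact (Finset.prod_induction _ Odd (fun a b ha hb => ha.mul hb) odd_one
      (fun q hq => (hn q hq).2)).mul (odd_prod_pow V (fun q hq => (hV q hq).2) σ)
  have h0 : w₀ ≠ 0 := by rintro h; rw [h] at hodd; exact absurd hodd (by decide)
  obtain ⟨S, hS⟩ : ∃ S, S = V.filter (fun q => Odd (hv q w₀)) := ⟨_, rfl⟩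
  have hSV : ∀ q ∈ S, q ∈ V := by
    intro q hq; rw [hS] at hq; exact (Finset.mem_filter.1 hq).1
  obtain ⟨t, ht⟩ : ∃ t, t = ∏ q ∈ S, q ^ (1 : ℕ) := ⟨_, rfl⟩
  have htodd : Odd t := by
    rw [ht]; exact odd_prod_pow S (fun q hq => (hV q (hSV q hq)).2) (fun _ => 1)
  have ht0 : t ≠ 0 := by rintro h; rw [h] at htodd; exact absurd htodd (by decide)
  refine ⟨w₀ * t, hodd.mul htodd, ?_⟩
  intro q hq
  have hp := (hV q hq).1
  have hf : Fact q.Prime := ⟨hp⟩
  obtain ⟨ho, hno⟩ := hn q hq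
  have hd0 : n q ∣ w₀ := by
    rw [hw₀]
    exact (Finset.dvd_prod_of_mem n hq).mul_right _
  have hdv0 : Dv q (w₀ : ℤ) := (ho.2 _).2 (by exact_mod_cast hd0)
  have hw0Z : (w₀ : ℤ) ≠ 0 := by exact_mod_cast h0
  have htZ : (t : ℤ) ≠ 0 := by exact_mod_cast ht0
  have hvt : padicValInt q (t : ℤ) = if q ∈ S then 1 else 0 := by
    rw [valInt_nat, ht]
    exact vprod S (fun r hr => (hV r (hSV r hr)).1) (fun _ => 1) hp
  have e1 : hv q ((w₀ * t : ℕ) : ℤ) = hv q w₀ - padicValInt q (t : ℤ) := by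
    rw [Nat.cast_mul]
    exact hv_mul hp hw0Z hdv0 htZ
  have hbig : (σ q : ℤ) ≤ -hv q w₀ := by
    obtain ⟨c, hc⟩ : n q * q ^ σ q ∣ w₀ := by
      rw [hw₀]
      exact mul_dvd_mul (Finset.dvd_prod_of_mem n hq)
        (Finset.dvd_prod_of_mem (fun q => q ^ σ q) hq)
    have hn0 : ((n q : ℕ) : ℤ) ≠ 0 := by exact_mod_cast ho.1.ne'
    have hc0 : c ≠ 0 := by rintro rfl; rw [mul_zero] at hc; exact h0 hc
    have hdn : Dv q ((n q : ℕ) : ℤ) := (ho.2 _).2 dvd_rfl
    have e2 : (w₀ : ℤ) = (n q : ℤ) * ((q ^ σ q * c : ℕ) : ℤ) := by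
      rw [hc]; push_cast; ring
    have hne : ((q ^ σ q * c : ℕ) : ℤ) ≠ 0 := by
      exact_mod_cast mul_ne_zero (pow_ne_zero _ hp.ne_zero) hc0
    have e3 : padicValInt q ((q ^ σ q * c : ℕ) : ℤ) = σ q + padicValNat q c := by
      rw [valInt_nat, padicValNat.mul (pow_ne_zero _ hp.ne_zero) hc0, padicValNat.prime_pow]
    rw [e2, hv_mul hp hn0 hdn hne, e3]
    have hneg : hv q ((n q : ℕ) : ℤ) ≤ 0 := by
      unfold hv
      rcases hdn with h | h
      · exact absurd h hn0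
      · omega
    rw [Nat.cast_add]
    have h5 : (0 : ℤ) ≤ ((padicValNat q c : ℕ) : ℤ) := Int.natCast_nonneg _
    linarith
  refine ⟨hd0.mul_right _, ?_, ?_⟩
  · rw [e1, hvt]
    split_ifs <;> push_cast <;> omega
  · rw [e1, hvt]
    by_cases ho1 : Odd (hv q w₀)
    · have : q ∈ S := by rw [hS]; exact Finset.mem_filter.2 ⟨hq, ho1⟩
      rw [if_pos this]
      obtain ⟨a, ha⟩ := ho1
      exact ⟨a, by rw [ha]; push_cast; ring⟩
    · have : q ∉ S := by rw [hS]; intro h; exact ho1 (Finset.mem_filter.1 h).2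
      rw [if_neg this]
      rw [Int.not_odd_iff_even] at ho1
      simpa using ho1

end Vale.Agent.P027.N
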