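import Mathlib

/-! Elementary equations over the rationals. -/

set_option linter.all false

namespace Vale.Agent.P027.N

/-- elementary equations between variables named by `α`: `a = 1`, `a = b + c`, `a = b * c` -/
inductive Eqn (α : Type) : Type
  | one (a : α)
  | add (a b c : α)
  | mul (a b c : α)

namespace Eqn

variable {α β : Type}

/-- renaming of the variables -/
def map (f : α → β) : Eqn α → Eqn β
  | one a => one (f a)
  | add a b c => add (f a) (f b) (f c)
  | mul a b c => mul (f a) (f b) (f c)

/-- the equation holds under the assignment -/
def Holds (v : α → ℚ) : Eqn α → Prop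
  | one a => v a = 1
  | add a b c => v a = v b + v c
  | mul a b c => v a = v b * v c

theorem holds_map (f : α → β) (v : β → ℚ) (e : Eqn α) :
    (e.map f).Holds v ↔ e.Holds (fun a => v (f a)) := by
  cases e <;> rfl

theorem holds_congr {v w : α → ℚ} (e : Eqn α) (h : v = w) : e.Holds v ↔ e.Holds w := by
  rw [h]

end Eqn

end Vale.Agent.P027.N
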