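import Vale.Agent.P027.Bdl.B1
import Vale.Agent.P027.N.Eqn

/-! Sized Diophantine predicates over the rationals: every predicate comes with an explicit list of
elementary equations (`a = 1`, `a = b + c`, `a = b * c`) and a bound for its length. -/

set_option linter.all false

namespace Vale.Agent.P027.N

/-- `S` is given by a system of at most `c` elementary equations in the variables named by `α`
and further unknowns -/
structure SD (α : Type) (c : ℕ) (S : (α → ℚ) → Prop) : Type where
  L : List (Eqn (α ⊕ ℕ))
  len : L.length ≤ c
  spec : ∀ v, S v ↔ ∃ y : ℕ → ℚ, ∀ e ∈ L, e.Holds (Sum.elim v y)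

namespace SD

variable {α β : Type} {c d : ℕ} {S T : (α → ℚ) → Prop}

def mono (h : SD α c S) (hcd : c ≤ d) : SD α d S := ⟨h.L, h.len.trans hcd, h.spec⟩

def congr (h : SD α c S) (e : ∀ v, T v ↔ S v) : SD α c T :=
  ⟨h.L, h.len, fun v => (e v).trans (h.spec v)⟩

/-- renaming of variables -/
def ren (h : SD α c S) (f : α → β) : SD β c (fun v => S (fun a => v (f a))) where
  L := h.L.map (Eqn.map (Sum.map f id))
  len := by simpa using h.len
  spec v := by
    rw [h.spec]
    constructor
    · rintro ⟨y, hy⟩
      refine ⟨y, fun e he => ?_⟩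
      obtain ⟨e', he', rfl⟩ := List.mem_map.1 he
      rw [Eqn.holds_map]
      refine (Eqn.holds_congr e' ?_).1 (hy e' he')
      funext i; rcases i with i | i <;> rfl
    · rintro ⟨y, hy⟩
      refine ⟨y, fun e he => ?_⟩
      have := hy _ (List.mem_map_of_mem he)
      rw [Eqn.holds_map] at this
      refine (Eqn.holds_congr e ?_).1 this
      funext i; rcases i with i | i <;> rfl

/-- the auxiliary renaming used in `exs` -/
def exsMap [Encodable β] : (α ⊕ β) ⊕ ℕ → α ⊕ ℕ
  | .inl (.inl a) => .inl a
  | .inl (.inr b) => .inr (2 * Encodable.encode b)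
  | .inr n => .inr (2 * n + 1)

/-- a block of existential quantifiers -/
def exs [Encodable β] {S : (α → ℚ) → (β → ℚ) → Prop}
    (h : SD (α ⊕ β) c (fun v => S (fun a => v (.inl a)) (fun b => v (.inr b)))) :
    SD α c (fun v => ∃ w : β → ℚ, S v w) where
  L := h.L.map (Eqn.map exsMap)
  len := by simpa using h.len
  spec v := by
    have hs : ∀ w : β → ℚ, S v w ↔ ∃ y : ℕ → ℚ, ∀ e ∈ h.L, e.Holds (Sum.elim (Sum.elim v w) y) :=
      fun w => h.spec (Sum.elim v w)
    constructor
    · rintro ⟨w, hw⟩
      obtain ⟨y, hy⟩ := (hs w).1 hw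
      refine ⟨fun m => if m % 2 = 0 then
        (match Encodable.decode (α := β) (m / 2) with | some b => w b | none => 0)
        else y (m / 2), fun e he => ?_⟩
      obtain ⟨e', he', rfl⟩ := List.mem_map.1 he
      rw [Eqn.holds_map]
      refine (Eqn.holds_congr e' ?_).1 (hy e' he')
      funext i
      rcases i with (a | b) | n
      · rfl
      · have h1 : 2 * Encodable.encode b % 2 = 0 := by omega
        have h2 : 2 * Encodable.encode b / 2 = Encodable.encode b := by omega
        simp only [exsMap, Sum.elim_inr, Sum.elim_inl, h1, h2, if_true, Encodable.encodek]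
      · have h1 : (2 * n + 1) % 2 = 1 := by omega
        have h2 : (2 * n + 1) / 2 = n := by omega
        simp only [exsMap, Sum.elim_inr, h1, h2, one_ne_zero, if_false]
    · rintro ⟨y, hy⟩
      refine ⟨fun b => y (2 * Encodable.encode b), (hs _).2 ⟨fun n => y (2 * n + 1),
        fun e he => ?_⟩⟩
      have := hy _ (List.mem_map_of_mem he)
      rw [Eqn.holds_map] at this
      refine (Eqn.holds_congr e ?_).1 this
      funext i
      rcases i with (a | b) | n <;> rfl

/-- one existential quantifier -/
def ex {S : ℚ → (α → ℚ) → Prop}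
    (h : SD (Option α) c (fun v => S (v none) (fun a => v (some a)))) :
    SD α c (fun v => ∃ x, S x v) := by
  have h1 : SD (α ⊕ Unit) c (fun v => S (v (.inr ())) (fun a => v (.inl a))) :=
    h.ren (fun o : Option α => (match o with | none => .inr () | some a => .inl a : α ⊕ Unit))
  exact (exs (S := fun v w => S (w ()) v) h1).congr (fun v =>
    ⟨fun ⟨x, hx⟩ => ⟨fun _ => x, hx⟩, fun ⟨w, hw⟩ => ⟨w (), hw⟩⟩)

/-- a single equation -/
def eqn (e : Eqn α) : SD α 1 (fun v => e.Holds v) where
  L := [e.map .inl]
  len := by simp
  spec v := by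
    simp only [List.mem_singleton, forall_eq, Eqn.holds_map, Sum.elim_inl, exists_const]

def triv : SD α 0 (fun _ => True) where
  L := []
  len := by simp
  spec v := by simp

/-- the renaming of the auxiliary unknowns in `and` -/
def andMap (r : ℕ) : α ⊕ ℕ → α ⊕ ℕ := Sum.map id (fun n => 2 * n + r)

def and (hS : SD α c S) (hT : SD α d T) : SD α (c + d) (fun v => S v ∧ T v) where
  L := hS.L.map (Eqn.map (andMap 0)) ++ hT.L.map (Eqn.map (andMap 1))
  len := by
    simp only [List.length_append, List.length_map]
    exact add_le_add hS.len hT.len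
  spec v := by
    rw [hS.spec, hT.spec]
    constructor
    · rintro ⟨⟨y, hy⟩, z, hz⟩
      refine ⟨fun i => if i % 2 = 0 then y (i / 2) else z (i / 2), fun e he => ?_⟩
      rcases List.mem_append.1 he with he | he
      · obtain ⟨e', he', rfl⟩ := List.mem_map.1 he
        rw [Eqn.holds_map]
        refine (Eqn.holds_congr e' ?_).1 (hy e' he')
        funext i
        rcases i with a | n
        · rfl
        · have h1 : (2 * n + 0) % 2 = 0 := by omega
          have h2 : (2 * n + 0) / 2 = n := by omega
          simp only [andMap, Sum.map_inr, Sum.elim_inr, h1, h2, if_true]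
      · obtain ⟨e', he', rfl⟩ := List.mem_map.1 he
        rw [Eqn.holds_map]
        refine (Eqn.holds_congr e' ?_).1 (hz e' he')
        funext i
        rcases i with a | n
        · rfl
        · have h1 : (2 * n + 1) % 2 = 1 := by omega
          have h2 : (2 * n + 1) / 2 = n := by omega
          simp only [andMap, Sum.map_inr, Sum.elim_inr, h1, h2, one_ne_zero, if_false]
    · rintro ⟨y, hy⟩
      refine ⟨⟨fun n => y (2 * n + 0), fun e he => ?_⟩, ⟨fun n => y (2 * n + 1), fun e he => ?_⟩⟩
      · have := hy _ (List.mem_append_left _ (List.mem_map_of_mem he))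
        rw [Eqn.holds_map] at this
        refine (Eqn.holds_congr e ?_).1 this
        funext i
        rcases i with a | n <;> rfl
      · have := hy _ (List.mem_append_right _ (List.mem_map_of_mem he))
        rw [Eqn.holds_map] at this
        refine (Eqn.holds_congr e ?_).1 this
        funext i
        rcases i with a | n <;> rfl

/-- a list of predicates -/
def list {ι : Type} {S : ι → (α → ℚ) → Prop} (h : ∀ i, SD α c (S i)) :
    (l : List ι) → SD α (l.length * c) (fun v => ∀ i ∈ l, S i v)
  | [] => (triv.congr (fun v => by simp)).mono (Nat.zero_le _)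
  | i :: l => (((h i).and (list h l)).congr (fun v => by simp)).mono (by
      simp only [List.length_cons]; rw [Nat.succ_mul]; omega)

/-- all members of a finite family -/
def all {m : ℕ} {S : Fin m → (α → ℚ) → Prop} (h : ∀ i, SD α c (S i)) :
    SD α (m * c) (fun v => ∀ i, S i v) :=
  ((list h (List.finRange m)).congr (fun v => by simp)).mono (by simp)

end SD

/-- functions given by at most `c` equations -/
def SF (α : Type) (c : ℕ) (f : (α → ℚ) → ℚ) : Type :=
  SD (Option α) c (fun v => v none = f (fun a => v (some a)))

namespace SD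

variable {α β : Type} {c d : ℕ}

/-- substitution of a function -/
def sub {S : ℚ → (α → ℚ) → Prop} {f : (α → ℚ) → ℚ} (hf : SF α c f)
    (hS : SD (Option α) d (fun v => S (v none) (fun a => v (some a)))) :
    SD α (c + d) (fun v => S (f v) v) := by
  have h : SD α (c + d) (fun v => ∃ x, x = f v ∧ S x v) := SD.ex (SD.and hf hS)
  exact h.congr (fun v => by simp)

end SD

namespace SF

variable {α β : Type} {c d : ℕ}

def mono {f : (α → ℚ) → ℚ} (h : SF α c f) (hcd : c ≤ d) : SF α d f := SD.mono h hcd

def congr {f g : (α → ℚ) → ℚ} (h : SF α c f) (e : ∀ v, g v = f v) : SF α c g :=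
  SD.congr h (fun v => by rw [e])

/-- renaming -/
def ren {f : (α → ℚ) → ℚ} (h : SF α c f) (r : α → β) : SF β c (fun v => f (fun a => v (r a))) :=
  SD.ren h (Option.map r)

/-- weakening by one variable -/
def tl {f : (α → ℚ) → ℚ} (h : SF α c f) : SF (Option α) c (fun v => f (fun a => v (some a))) :=
  h.ren some

/-- a variable as a function: `1` times the variable -/
def var (a : α) : SF α 2 (fun v => v a) := by
  have h : SD (Option α) 2 (fun v => ∃ x, x = 1 ∧ v none = v (some a) * x) :=
    SD.ex ((SD.eqn (.one none)).and (SD.eqn (.mul (some none) (some (some a)) none)))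
  exact h.congr (fun v => by simp)

def one : SF α 1 (fun _ => 1) := SD.eqn (.one none)

/-- binary operations -/
def bin {op : ℚ → ℚ → ℚ} {k : ℕ} {f g : (α → ℚ) → ℚ}
    (hop : SD (Fin 3) k (fun v => v 2 = op (v 1) (v 0)))
    (hf : SF α c f) (hg : SF α d g) : SF α (c + (d + k)) (fun v => op (f v) (g v)) := by
  unfold SF
  refine SD.sub (S := fun x (v : Option α → ℚ) => v none = op x (g (fun a => v (some a)))) hf.tl ?_
  refine SD.sub (S := fun x (v : Option (Option α) → ℚ) => v (some none) = op (v none) x)
    hg.tl.tl ?_
  exact hop.ren (fun i => if i = 2 then some (some none) else if i = 1 then some none else none)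

def un {op : ℚ → ℚ} {k : ℕ} {f : (α → ℚ) → ℚ}
    (hop : SD (Fin 2) k (fun v => v 1 = op (v 0)))
    (hf : SF α c f) : SF α (c + k) (fun v => op (f v)) := by
  unfold SF
  refine SD.sub (S := fun x (v : Option α → ℚ) => v none = op x) hf.tl ?_
  exact hop.ren (fun i => if i = 1 then some none else none)

def add {f g : (α → ℚ) → ℚ} (hf : SF α c f) (hg : SF α d g) :
    SF α (c + (d + 1)) (fun v => f v + g v) :=
  bin (op := fun a b => a + b) (SD.eqn (.add 2 1 0)) hf hg

def mul {f g : (α → ℚ) → ℚ} (hf : SF α c f) (hg : SF α d g) :
    SF α (c + (d + 1)) (fun v => f v * g v) :=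
  bin (op := fun a b => a * b) (SD.eqn (.mul 2 1 0)) hf hg

def sub {f g : (α → ℚ) → ℚ} (hf : SF α c f) (hg : SF α d g) :
    SF α (c + (d + 1)) (fun v => f v - g v) :=
  bin (op := fun a b => a - b) ((SD.eqn (.add (1 : Fin 3) 2 0)).congr (fun v => by
    show v 2 = v 1 - v 0 ↔ v 1 = v 2 + v 0
    constructor <;> intro h <;> linarith)) hf hg

def zero : SF α 2 (fun _ => 0) := by
  have h : SD (Option α) 2 (fun v => ∃ x, x = 1 ∧ x = v none + x) :=
    SD.ex ((SD.eqn (.one none)).and (SD.eqn (.add none (some none) none)))
  exact h.congr (fun v => by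
    simp only [exists_eq_left]
    constructor
    · intro h; rw [h]; norm_num
    · intro h; linarith)

/-- numerals, in unary -/
def num : (n : ℕ) → SF α (2 * n + 2) (fun _ => (n : ℚ))
  | 0 => zero.congr (fun v => by simp)
  | n + 1 => ((num n).add one).congr (fun v => by push_cast; ring) |>.mono (by omega)

def neg {f : (α → ℚ) → ℚ} (hf : SF α c f) : SF α (2 + (c + 1)) (fun v => -f v) :=
  (zero.sub hf).congr (fun v => by simp)

def pow {f : (α → ℚ) → ℚ} (hf : SF α c f) : (n : ℕ) → SF α (n * (c + 1) + 1) (fun v => f v ^ n)
  | 0 => one.congr (fun v => by simp) |>.mono (by omega)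
  | n + 1 => ((pow hf n).mul hf).congr (fun v => by rw [pow_succ]) |>.mono (by
      rw [Nat.succ_mul]; omega)

end SF

namespace SD

variable {α β : Type} {c d : ℕ}

def eq {f g : (α → ℚ) → ℚ} (hf : SF α c f) (hg : SF α d g) : SD α (c + d) (fun v => f v = g v) :=
  SD.sub (S := fun x v => x = g v) hf hg

def ne {f g : (α → ℚ) → ℚ} (hf : SF α c f) (hg : SF α d g) :
    SD α (c + d + 5) (fun v => f v ≠ g v) := by
  have h : SD α (c + d + 5) (fun v => ∃ z, (f v - g v) * z = 1) := by
    refine SD.ex (S := fun z v => (f v - g v) * z = 1) ?_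
    exact (SD.eq ((hf.tl.sub hg.tl).mul (SF.var none)) SF.one).mono (by omega)
  refine h.congr (fun v => ?_)
  rw [← sub_ne_zero]
  constructor
  · intro h; exact ⟨(f v - g v)⁻¹, mul_inv_cancel₀ h⟩
  · rintro ⟨z, hz⟩ h0; rw [h0] at hz; simp at hz

/-- a guarded equation -/
def guardEqn (e : Eqn α) :
    SD (Option α) 3 (fun v => v none = 0 ∨ e.Holds (fun a => v (some a))) := by
  match e with
  | .one a =>
    exact ((eqn (.mul none none (some a))).congr (fun v => by
      show (v none = 0 ∨ v (some a) = 1) ↔ v none = v none * v (some a)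
      constructor
      · rintro (h | h) <;> rw [h] <;> simp
      · intro h
        by_cases h0 : v none = 0
        · exact Or.inl h0
        · right
          have h1 : v none * 1 = v none * v (some a) := by rw [mul_one]; exact h
          exact (mul_left_cancel₀ h0 h1).symm)).mono (by norm_num)
  | .add a b c =>
    have h : SD (Option α) 3 (fun v => ∃ w z : ℚ, w = v (some b) + v (some c) ∧
        (z = v none * w ∧ z = v none * v (some a))) := by
      refine SD.ex (S := fun w v => ∃ z : ℚ, w = v (some b) + v (some c) ∧
        (z = v none * w ∧ z = v none * v (some a))) ?_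
      refine SD.ex (S := fun z v => v none = v (some (some b)) + v (some (some c)) ∧
        (z = v (some none) * v none ∧ z = v (some none) * v (some (some a)))) ?_
      exact (eqn (.add (some none) (some (some (some b))) (some (some (some c))))).and
        ((eqn (.mul none (some (some none)) (some none))).and
          (eqn (.mul none (some (some none)) (some (some (some a))))))
    refine h.congr (fun v => ?_)
    show (v none = 0 ∨ v (some a) = v (some b) + v (some c)) ↔ _
    simp only [exists_eq_left, exists_and_left, mul_eq_mul_left_iff]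
    constructor
    · rintro (h | h)
      · simp [h]
      · simp [h]
    · rintro h
      by_cases h0 : v none = 0
      · exact Or.inl h0
      · right
        rcases h with h | h
        · exact h.symm
        · exact absurd h h0
  | .mul a b c =>
    have h : SD (Option α) 3 (fun v => ∃ w z : ℚ, w = v (some b) * v (some c) ∧
        (z = v none * w ∧ z = v none * v (some a))) := by
      refine SD.ex (S := fun w v => ∃ z : ℚ, w = v (some b) * v (some c) ∧
        (z = v none * w ∧ z = v none * v (some a))) ?_
      refine SD.ex (S := fun z v => v none = v (some (some b)) * v (some (some c)) ∧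
        (z = v (some none) * v none ∧ z = v (some none) * v (some (some a)))) ?_
      exact (eqn (.mul (some none) (some (some (some b))) (some (some (some c))))).and
        ((eqn (.mul none (some (some none)) (some none))).and
          (eqn (.mul none (some (some none)) (some (some (some a))))))
    refine h.congr (fun v => ?_)
    show (v none = 0 ∨ v (some a) = v (some b) * v (some c)) ↔ _
    simp only [exists_eq_left, exists_and_left, mul_eq_mul_left_iff]
    constructor
    · rintro (h | h)
      · simp [h]
      · simp [h]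
    · rintro h
      by_cases h0 : v none = 0
      · exact Or.inl h0
      · right
        rcases h with h | h
        · exact h.symm
        · exact absurd h h0

def guardMap : Option (α ⊕ ℕ) → Option α ⊕ ℕ
  | none => .inl none
  | some (.inl a) => .inl (some a)
  | some (.inr n) => .inr n

/-- `t = 0` or `S` -/
def guard {S : (α → ℚ) → Prop} (h : SD α c S) :
    SD (Option α) (3 * c) (fun v => v none = 0 ∨ S (fun a => v (some a))) := by
  have h1 : SD (Option (α ⊕ ℕ)) (h.L.length * 3)
      (fun v => ∀ e ∈ h.L, v none = 0 ∨ e.Holds (fun a => v (some a))) :=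
    list (fun e => guardEqn e) h.L
  have h2 := h1.ren (guardMap (α := α))
  have h3 : SD (Option α) (h.L.length * 3)
      (fun v => ∃ y : ℕ → ℚ, ∀ e ∈ h.L, v none = 0 ∨
        e.Holds (fun a => match a with | .inl a => v (some a) | .inr n => y n)) := by
    refine exs (S := fun v y => ∀ e ∈ h.L, v none = 0 ∨
        e.Holds (fun a => match a with | .inl a => v (some a) | .inr n => y n)) ?_
    refine h2.congr (fun v => forall₂_congr (fun e _ => or_congr_right ?_))
    refine Eqn.holds_congr e ?_
    funext a
    rcases a with a | n <;> rfl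
  refine (h3.mono (by have := h.len; omega)).congr (fun v => ?_)
  have e1 : ∀ y : ℕ → ℚ, (fun a : α ⊕ ℕ => match a with | .inl a => v (some a) | .inr n => y n) =
      Sum.elim (fun a => v (some a)) y := by
    intro y; funext a; rcases a with a | n <;> rfl
  simp only [e1]
  rw [h.spec]
  by_cases h0 : v none = 0
  · simp [h0]
  · simp [h0]

def orMap (i : Option (Option (Option α))) : Option α → Option (Option (Option α))
  | none => i
  | some a => some (some (some a))

def or {S T : (α → ℚ) → Prop} (hS : SD α c S) (hT : SD α d T) :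
    SD α (3 * c + 3 * d + 2) (fun v => S v ∨ T v) := by
  have h : SD α (3 * c + 3 * d + 2) (fun v => ∃ o t u : ℚ, o = 1 ∧ (o = t + u ∧
      ((t = 0 ∨ S v) ∧ (u = 0 ∨ T v)))) := by
    refine SD.ex (S := fun o v => ∃ t u : ℚ, o = 1 ∧ (o = t + u ∧
      ((t = 0 ∨ S v) ∧ (u = 0 ∨ T v)))) ?_
    refine SD.ex (S := fun t v => ∃ u : ℚ, v none = 1 ∧ (v none = t + u ∧
      ((t = 0 ∨ S (fun a => v (some a))) ∧ (u = 0 ∨ T (fun a => v (some a)))))) ?_
    refine SD.ex (S := fun u v => v (some none) = 1 ∧ (v (some none) = v none + u ∧
      ((v none = 0 ∨ S (fun a => v (some (some a)))) ∧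
        (u = 0 ∨ T (fun a => v (some (some a))))))) ?_
    have hS' := (guard hS).ren (orMap (α := α) (some none))
    have hT' := (guard hT).ren (orMap (α := α) none)
    exact ((eqn (.one (some (some none)))).and ((eqn (.add (some (some none)) (some none) none)).and
      (hS'.and hT'))).mono (by omega)
  refine h.congr (fun v => ?_)
  simp only [exists_and_left, exists_eq_left]
  constructor
  · rintro (h | h)
    · exact ⟨1, 0, by norm_num, Or.inr h, Or.inl rfl⟩
    · exact ⟨0, 1, by norm_num, Or.inl rfl, Or.inr h⟩
  · rintro ⟨t, u, htu, h1, h2⟩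
    rcases h1 with h1 | h1
    · rcases h2 with h2 | h2
      · rw [h1, h2] at htu; norm_num at htu
      · exact Or.inr h2
    · exact Or.inl h1

end SD

end Vale.Agent.P027.N
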