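import Vale.Agent.P027.N.Sd
import Vale.Agent.P027.H833.Chain

/-! Sizes of the building blocks. -/

set_option linter.all false

namespace Vale.Agent.P027.N

open Vale.Agent.P027 Vale.Agent.P027.Q

/-- explicitly enumerated types -/
class En (ι : Type) where
  l : List ι
  mem : ∀ i, i ∈ l

/-- the number of elements of the list -/
def En.n (ι : Type) [En ι] : ℕ := (En.l : List ι).length

instance : En Unit := ⟨[()], fun _ => by simp⟩
instance : En Bool := ⟨[false, true], fun i => by cases i <;> simp⟩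
instance {n : ℕ} : En (Fin n) := ⟨List.finRange n, fun i => by simp⟩
instance {ι : Type} [En ι] : En (Option ι) :=
  ⟨none :: (En.l : List ι).map some, fun i => by
    cases i with
    | none => simp
    | some i => simpa using En.mem i⟩
instance {ι κ : Type} [En ι] [En κ] : En (ι ⊕ κ) :=
  ⟨(En.l : List ι).map .inl ++ (En.l : List κ).map .inr, fun i => by
    cases i with
    | inl i => simpa using En.mem i
    | inr i => simpa using En.mem i⟩
instance {ι κ : Type} [En ι] [En κ] : En (ι × κ) :=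
  ⟨(En.l : List ι).product (En.l : List κ), fun i => by
    obtain ⟨i, j⟩ := i
    simpa using ⟨En.mem i, En.mem j⟩⟩

@[simp] lemma En.n_unit : En.n Unit = 1 := rfl
@[simp] lemma En.n_bool : En.n Bool = 2 := rfl
@[simp] lemma En.n_fin {n : ℕ} : En.n (Fin n) = n := by
  show (List.finRange n).length = n
  simp
@[simp] lemma En.n_option {ι : Type} [En ι] : En.n (Option ι) = En.n ι + 1 := by
  show (none :: (En.l : List ι).map some).length = _
  simp [En.n]
@[simp] lemma En.n_sum {ι κ : Type} [En ι] [En κ] : En.n (ι ⊕ κ) = En.n ι + En.n κ := by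
  show ((En.l : List ι).map Sum.inl ++ (En.l : List κ).map Sum.inr).length = _
  simp [En.n]
@[simp] lemma En.n_prod {ι κ : Type} [En ι] [En κ] : En.n (ι × κ) = En.n ι * En.n κ := by
  show ((En.l : List ι).product (En.l : List κ)).length = _
  exact List.length_product _ _

namespace SD

variable {α β : Type} {c d : ℕ}

def allE {ι : Type} [En ι] {S : ι → (α → ℚ) → Prop} (h : ∀ i, SD α c (S i)) :
    SD α (En.n ι * c) (fun v => ∀ i, S i v) :=
  ((list h (En.l : List ι)).congr (fun v => ⟨fun h i _ => h i, fun h i => h i (En.mem i)⟩))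

def app1 {S : ℚ → Prop} (hS : SD (Fin 1) d (fun v => S (v 0))) {f : (α → ℚ) → ℚ}
    (hf : SF α c f) : SD α (c + d) (fun v => S (f v)) :=
  SD.sub (S := fun x _ => S x) hf (hS.ren (fun _ => none))

def app2 {cf cg : ℕ} {S : ℚ → ℚ → Prop} (hS : SD (Fin 2) d (fun v => S (v 0) (v 1)))
    {f g : (α → ℚ) → ℚ} (hf : SF α cf f) (hg : SF α cg g) :
    SD α (cf + (cg + d)) (fun v => S (f v) (g v)) := by
  refine SD.sub (S := fun x v => S x (g v)) hf ?_
  refine SD.sub (S := fun y (v : Option α → ℚ) => S (v none) y) hg.tl ?_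
  exact hS.ren (fun i => if i = 0 then some none else none)

def app3 {cf cg ch : ℕ} {S : ℚ → ℚ → ℚ → Prop}
    (hS : SD (Fin 3) d (fun v => S (v 0) (v 1) (v 2)))
    {f g h : (α → ℚ) → ℚ} (hf : SF α cf f) (hg : SF α cg g) (hh : SF α ch h) :
    SD α (cf + (cg + (ch + d))) (fun v => S (f v) (g v) (h v)) := by
  refine SD.sub (S := fun x v => S x (g v) (h v)) hf ?_
  refine SD.sub (S := fun y (v : Option α → ℚ) => S (v none) y (h (fun a => v (some a)))) hg.tl ?_
  refine SD.sub (S := fun z (v : Option (Option α) → ℚ) => S (v (some none)) (v none) z)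
    hh.tl.tl ?_
  exact hS.ren (fun i => if i = 0 then some (some none) else if i = 1 then some none else none)

end SD

namespace SF

variable {α β : Type} {c d : ℕ}

/-- the inverse, with inverse of zero equal to zero -/
def inv {f : (α → ℚ) → ℚ} (hf : SF α c f) : SF α (c + 3) (fun v => (f v)⁻¹) := by
  refine un (op := fun a => a⁻¹) ?_ hf
  have h : SD (Fin 2) 3 (fun v => ∃ w, w = v 1 * v 0 ∧ (v 0 = w * v 0 ∧ v 1 = w * v 1)) := by
    refine SD.ex (S := fun w v => w = v 1 * v 0 ∧ (v 0 = w * v 0 ∧ v 1 = w * v 1)) ?_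
    exact (SD.eqn (.mul none (some 1) (some 0))).and ((SD.eqn (.mul (some 0) none (some 0))).and
      (SD.eqn (.mul (some 1) none (some 1))))
  refine h.congr (fun v => ?_)
  simp only [exists_eq_left]
  constructor
  · intro h
    rw [h]
    by_cases h0 : v 0 = 0
    · rw [h0]; simp
    · rw [inv_mul_cancel₀ h0]; simp
  · rintro ⟨h1, h2⟩
    by_cases h0 : v 0 = 0
    · rw [h0] at h2 ⊢
      simpa using h2
    · have h3 : v 1 * v 0 = 1 := by
        have : (v 1 * v 0) * v 0 = 1 * v 0 := by rw [one_mul]; exact h1.symm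
        exact mul_right_cancel₀ h0 this
      exact eq_inv_of_mul_eq_one_left h3

def div {f g : (α → ℚ) → ℚ} (hf : SF α c f) (hg : SF α d g) :
    SF α (c + (d + 3 + 1)) (fun v => f v / g v) :=
  (hf.mul hg.inv).congr (fun v => by rw [div_eq_mul_inv])

def n (k : ℕ) [k.AtLeastTwo] : SF α (2 * k + 2) (fun _ => (OfNat.ofNat k : ℚ)) := num k

/-- the last but one step -/
def gAnd {f g : (α → ℚ) → ℚ} (hf : SF α c f) (hg : SF α d g) :
    SF α (c + (d + 40)) (fun v => gAnd (f v) (g v)) := by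
  refine bin (op := fun x y => N.gAnd x y) ?_ hf hg
  exact (SD.eq (SF.var (2 : Fin 3)) (((SF.var (1 : Fin 3)).pow 2).sub
    ((SF.n 2).mul ((SF.var (0 : Fin 3)).pow 2)))).mono (by norm_num)

def gOr {f g : (α → ℚ) → ℚ} (hf : SF α c f) (hg : SF α d g) :
    SF α (c + (d + 80)) (fun v => gOr (f v) (g v)) := by
  refine bin (op := fun x y => N.gOr x y) ?_ hf hg
  exact (SD.eq (SF.var (2 : Fin 3)) ((((SF.var (1 : Fin 3)).pow 2).mul
    ((SF.var (0 : Fin 3)).pow 2)).div
    (((SF.var (0 : Fin 3)).pow 2).sub ((SF.n 2).mul ((SF.var (1 : Fin 3)).pow 2))))).mono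
      (by norm_num)

/-- values of formulas -/
def val {A : Type} {t : A → (α → ℚ) → ℚ} (ht : ∀ a, SF α c (t a)) :
    (f : Fm A) → SF α ((c + 80) * f.size) (fun v => f.val (fun a => t a v))
  | .lit a => (ht a).mono (by show c ≤ (c + 80) * 1; omega)
  | .and f g => ((val ht f).gAnd (val ht g)).mono (by
      show _ ≤ (c + 80) * (f.size + g.size + 1)
      rw [Nat.mul_add, Nat.mul_add]; omega)
  | .or f g => ((val ht f).gOr (val ht g)).mono (by
      show _ ≤ (c + 80) * (f.size + g.size + 1)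
      rw [Nat.mul_add, Nat.mul_add]; omega)

end SF

namespace SD

variable {α β : Type} {c d : ℕ}

def con {ca cb cr : ℕ} {a b r : (α → ℚ) → ℚ} (ha : SF α ca a) (hb : SF α cb b) (hr : SF α cr r) :
    SD α (ca + (cb + (cr + 60))) (fun v => Con (a v) (b v) (r v)) := by
  refine app3 ?_ ha hb hr
  have h : SD (Fin 3) 60 (fun v => ∃ x z : ℚ, x ^ 2 - v 0 * z ^ 2 = 1 + 4 * v 1 * v 2 ^ 2) := by
    refine SD.ex (S := fun x v => ∃ z : ℚ, x ^ 2 - v 0 * z ^ 2 = 1 + 4 * v 1 * v 2 ^ 2) ?_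
    refine SD.ex (S := fun z (v : Option (Fin 3) → ℚ) => v none ^ 2 - v (some 0) * z ^ 2 =
      1 + 4 * v (some 1) * v (some 2) ^ 2) ?_
    exact (SD.eq (((SF.var (some none)).pow 2).sub ((SF.var (some (some 0))).mul
      ((SF.var none).pow 2))) (SF.one.add (((SF.n 4).mul (SF.var (some (some 1)))).mul
        ((SF.var (some (some 2))).pow 2)))).mono (by norm_num)
  exact h

def cap {ca cb : ℕ} {a b : (α → ℚ) → ℚ} (ha : SF α ca a) (hb : SF α cb b) :
    SD α (ca + (cb + 120)) (fun v => Cap (a v) (b v)) := by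
  refine app2 ?_ ha hb
  have h1 : SD (Fin 2) 40 (fun v => ∃ e f : ℚ, v 0 = e ^ 2 - 2 * f ^ 2) := by
    refine SD.ex (S := fun e v => ∃ f : ℚ, v 0 = e ^ 2 - 2 * f ^ 2) ?_
    refine SD.ex (S := fun f (v : Option (Fin 2) → ℚ) => v (some 0) = v none ^ 2 - 2 * f ^ 2) ?_
    exact (SD.eq (SF.var (some (some 0))) (((SF.var (some none)).pow 2).sub
      ((SF.n 2).mul ((SF.var none).pow 2)))).mono (by norm_num)
  have h2 : SD (Fin 2) 40 (fun v => ∃ e f : ℚ, 2 * v 0 = e ^ 2 - v 1 * f ^ 2) := by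
    refine SD.ex (S := fun e v => ∃ f : ℚ, 2 * v 0 = e ^ 2 - v 1 * f ^ 2) ?_
    refine SD.ex (S := fun f (v : Option (Fin 2) → ℚ) => 2 * v (some 0) =
      v none ^ 2 - v (some 1) * f ^ 2) ?_
    exact (SD.eq ((SF.n 2).mul (SF.var (some (some 0)))) (((SF.var (some none)).pow 2).sub
      ((SF.var (some (some 1))).mul ((SF.var none).pow 2)))).mono (by norm_num)
  have h3 : SD (Fin 2) 20 (fun v => v 0 ≠ 0) := (SD.ne (SF.var 0) SF.zero).mono (by norm_num)
  have h4 : SD (Fin 2) 120 (fun v => v 0 ≠ 0 ∧ ((∃ e f : ℚ, v 0 = e ^ 2 - 2 * f ^ 2) ∧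
      ∃ e f : ℚ, 2 * v 0 = e ^ 2 - v 1 * f ^ 2)) := (h3.and (h1.and h2)).mono (by norm_num)
  exact h4

def quart {cs : ℕ} {s : (α → ℚ) → ℚ} (hs : SF α cs s) :
    SD α (cs + 100) (fun v => Quart (s v)) := by
  refine app1 ?_ hs
  have h1 : SD (Fin 1) 80 (fun v => ∃ r : ℚ, r ^ 2 = -v 0 ^ 4 + 10 * v 0 ^ 2 + 7) := by
    refine SD.ex (S := fun r v => r ^ 2 = -v 0 ^ 4 + 10 * v 0 ^ 2 + 7) ?_
    exact (SD.eq ((SF.var none).pow 2) (((((SF.var (some 0)).pow 4).neg).add
      ((SF.n 10).mul ((SF.var (some 0)).pow 2))).add (SF.n 7))).mono (by norm_num)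
  have h3 : SD (Fin 1) 20 (fun v => v 0 ≠ 0) := (SD.ne (SF.var 0) SF.zero).mono (by norm_num)
  exact (h3.and h1).mono (by norm_num)

/-- the check -/
def chk {ι : Type} [En ι] {cs ct : ℕ} {s : (α → ℚ) → ℚ} {t : ι → (α → ℚ) → ℚ}
    (hs : SF α cs s) (ht : ∀ i, SF α ct (t i)) :
    SD α (2 * cs + 300 + En.n ι * (cs + ct + 200)) (fun v => Chk (s v) (fun i => t i v)) := by
  have h : SD α (2 * cs + 300 + En.n ι * (cs + ct + 200)) (fun v => ∃ b a : ℚ,
      (b ^ 2 - s v ^ 2) * (b ^ 2 - 9 * s v ^ 2) = 0 ∧ (Cap a b ∧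
        ∀ i, Con a b (N.gOr (s v) (t i v)))) := by
    refine SD.ex (S := fun b v => ∃ a : ℚ,
      (b ^ 2 - s v ^ 2) * (b ^ 2 - 9 * s v ^ 2) = 0 ∧ (Cap a b ∧
        ∀ i, Con a b (N.gOr (s v) (t i v)))) ?_
    refine SD.ex (S := fun a (v : Option α → ℚ) =>
      (v none ^ 2 - s (fun a => v (some a)) ^ 2) * (v none ^ 2 -
        9 * s (fun a => v (some a)) ^ 2) = 0 ∧ (Cap a (v none) ∧
        ∀ i, Con a (v none) (N.gOr (s (fun a => v (some a))) (t i (fun a => v (some a)))))) ?_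
    have hs' := hs.tl.tl
    have ht' := fun i => (ht i).tl.tl
    have k1 : SD (Option (Option α)) (2 * cs + 140) (fun v => (v (some none) ^ 2 -
        s (fun a => v (some (some a))) ^ 2) * (v (some none) ^ 2 -
        9 * s (fun a => v (some (some a))) ^ 2) = 0) := by
      refine (app2 (cf := 2) (cg := cs) (d := 120) (S := fun b s => (b ^ 2 -
        s ^ 2) * (b ^ 2 - 9 * s ^ 2) = 0) ?_ (SF.var (some none)) hs').mono (by omega)
      exact (SD.eq ((((SF.var (0 : Fin 2)).pow 2).sub ((SF.var (1 : Fin 2)).pow 2)).mul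
        (((SF.var (0 : Fin 2)).pow 2).sub ((SF.n 9).mul ((SF.var (1 : Fin 2)).pow 2))))
          SF.zero).mono (by norm_num)
    have k2 := cap (SF.var (none : Option (Option α))) (SF.var (some none))
    have k3 := allE (ι := ι) (fun i => con (SF.var (none : Option (Option α)))
      (SF.var (some none)) (hs'.gOr (ht' i)))
    refine (k1.and (k2.and k3)).mono ?_
    have : En.n ι * (2 + (2 + (cs + (ct + 80) + 60))) ≤ En.n ι * (cs + ct + 200) :=
      Nat.mul_le_mul_left _ (by omega)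
    omega
  exact h

end SD

end Vale.Agent.P027.N
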