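import Vale.Agent.P027.N.Siz

/-! Size of the whole system. -/

set_option linter.all false

namespace Vale.Agent.P027.N

open Vale.Agent.P027 Vale.Agent.P027.Q

variable {α β : Type} {c d : ℕ}

namespace SF

/-- values of literals -/
def lit {I J π : Type} (fs : I → α) (fs' : J → α) (w : J) (U : I) (fz : π → α) :
    (l : Lit I J π) → SF α 20 (fun v => litV (fun i => v (fs i)) (fun j => v (fs' j)) w U
      (fun x => v (fz x)) l)
  | .rd k => (one.div (var (fs k))).mono (by norm_num)
  | .nrd k => ((var (fs k)).div (var (fs U))).mono (by norm_num)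
  | .one j => (((var (fs U)).mul (var (fs' w))).div (var (fs' j))).mono (by norm_num)
  | .zero j => ((var (fs' j)).div ((var (fs' w)).mul (var (fs U)))).mono (by norm_num)
  | .par x => (((var (fz x)).div (var (fs U))).add (one.sub (var (fz x)))).mono (by norm_num)
  | .npar x => (((one.sub (var (fz x))).div (var (fs U))).add (var (fz x))).mono (by norm_num)

end SF

namespace SD

/-- size bound for a step -/
def stpC (nI nJ nK M : ℕ) : ℕ := nJ * 102 + nI * (304 + (nJ + nK) * (100 * M + 209))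

/-- a step -/
def stp {I J κ π : Type} [En I] [En J] [En κ] (w : J) (G : κ → Fm (Lit I J π)) (M : ℕ)
    (hM : ∀ c, (G c).size ≤ M) (fs : I → α) (fs' : J → α) (fz : π → α) :
    SD α (stpC (En.n I) (En.n J) (En.n κ) M) (fun v => Stp w G (fun x => v (fz x))
      (fun i => v (fs i)) (fun j => v (fs' j))) := by
  have h1 : SD α (En.n J * 102) (fun v => ∀ j, Quart (v (fs' j))) :=
    allE (fun j => (quart (SF.var (fs' j))).mono (by norm_num))
  have h2 : SD α (En.n I * (304 + (En.n J + En.n κ) * (100 * M + 209))) (fun v => ∀ U,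
      Chk (v (fs U)) (Sum.elim (fun j => 1 / v (fs' j)) (fun c => (G c).val
        (litV (fun i => v (fs i)) (fun j => v (fs' j)) w U (fun x => v (fz x)))))) := by
    refine allE (fun U => ?_)
    have ht : ∀ i : J ⊕ κ, SF α (100 * M + 7) (fun v => Sum.elim (fun j => 1 / v (fs' j))
        (fun c => (G c).val (litV (fun i => v (fs i)) (fun j => v (fs' j)) w U
          (fun x => v (fz x)))) i) := fun i => match i with
      | .inl j => (SF.one.div (SF.var (fs' j))).mono (by omega)
      | .inr c => (SF.val (fun l => SF.lit fs fs' w U fz l) (G c)).mono (by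
          have := hM c
          have : (20 + 80) * (G c).size ≤ 100 * M := Nat.mul_le_mul_left _ this
          omega)
    refine (chk (SF.var (fs U)) ht).mono ?_
    rw [En.n_sum]
    have : (En.n J + En.n κ) * (2 + (100 * M + 7) + 200) =
      (En.n J + En.n κ) * (100 * M + 209) := by congr 1; omega
    rw [this]
  exact (h1.and h2).congr (fun v => ⟨fun h => ⟨h.quart, h.chk⟩, fun h => ⟨h.1, h.2⟩⟩)

def tri (a b : α) : SD α 300 (fun v => Tri (v a) (v b)) := by
  refine (app2 (S := Tri) (d := 296) ?_ (SF.var a) (SF.var b)).mono (by norm_num)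
  have h : SD (Fin 2) 296 (fun v => ∃ X : ℚ,
      4 * (-v 0 ^ 6 + 10 * v 0 ^ 4 + 7 * v 0 ^ 2) * X = (v 0 ^ 4 + 7) ^ 2 ∧
      (v 1 * v 0 * (X + v 0 ^ 2)) ^ 2 = (7 - X * v 0 ^ 2) ^ 2) := by
    refine SD.ex (S := fun X v => 4 * (-v 0 ^ 6 + 10 * v 0 ^ 4 + 7 * v 0 ^ 2) * X =
      (v 0 ^ 4 + 7) ^ 2 ∧ (v 1 * v 0 * (X + v 0 ^ 2)) ^ 2 = (7 - X * v 0 ^ 2) ^ 2) ?_
    have s : SF (Option (Fin 2)) 2 (fun v => v (some 0)) := SF.var (some 0)
    have s' : SF (Option (Fin 2)) 2 (fun v => v (some 1)) := SF.var (some 1)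
    have X : SF (Option (Fin 2)) 2 (fun v => v none) := SF.var none
    exact ((SD.eq (((SF.n 4).mul ((((s.pow 6).neg).add ((SF.n 10).mul (s.pow 4))).add
      ((SF.n 7).mul (s.pow 2)))).mul X) (((s.pow 4).add (SF.n 7)).pow 2)).and
      (SD.eq (((s'.mul s).mul (X.add (s.pow 2))).pow 2)
        (((SF.n 7).sub (X.mul (s.pow 2))).pow 2))).mono (by norm_num)
  exact h

def bas {K : ℕ} (f : Fin (K + 1) → α) :
    SD α (K * 300 + 80) (fun v => Bas K (fun i => v (f i))) := by
  have h1 : SD α 80 (fun v => 25 * v (f 0) ^ 2 = 1) :=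
    (SD.eq ((SF.n 25).mul ((SF.var (f 0)).pow 2)) SF.one).mono (by norm_num)
  have h2 : SD α (K * 300) (fun v => ∀ i : Fin K, Tri (v (f i.castSucc)) (v (f i.succ))) :=
    (allE (fun i : Fin K => tri (f i.castSucc) (f i.succ))).mono (by rw [En.n_fin])
  exact ((h1.and h2).mono (by omega)).congr (fun v => Iff.rfl)

end SD

/-! ### Sizes of the constraints -/

section sizes

variable {π : Type} {n k : ℕ}

lemma size_G0 (o : Option (Ltr n)) : (G0 (π := π) o).size ≤ 11 := by
  cases o <;> simp [G0, gIn, gNin, Fm.size]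

lemma size_gCp {I J : Type} (i : Ltr n → I) (j : Ltr n → J) (top : J) (o : Option (Ltr n)) :
    (gCp (π := π) i j top o).size ≤ 11 := by
  cases o <;> simp [gCp, Fm.size]

lemma size_gCp7 {I J : Type} (i : Ltr n → I) (j : Ltr n → J) (top : J) (o : Option (Ltr n)) :
    (gCp (π := π) i j top o).size ≤ 7 := by
  cases o <;> simp [gCp, Fm.size]

lemma size_lOr {I J : Type} (i : I) (M : ℕ) (l : List (Fm (Lit I J π)))
    (h : ∀ f ∈ l, f.size ≤ M) : (lOr i l).size ≤ l.length * (M + 1) + 3 := by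
  induction l with
  | nil => simp [lOr, Fm.size]
  | cons f l ih =>
    have h1 := h f (by simp)
    have h2 := ih (fun g hg => h g (by simp [hg]))
    show f.size + (lOr i l).size + 1 ≤ _
    rw [List.length_cons, Nat.succ_mul]
    omega

lemma size_lAnd {I J : Type} (i : I) (M : ℕ) (l : List (Fm (Lit I J π)))
    (h : ∀ f ∈ l, f.size ≤ M) : (lAnd i l).size ≤ l.length * (M + 1) + 3 := by
  induction l with
  | nil => simp [lAnd, Fm.size]
  | cons f l ih =>
    have h1 := h f (by simp)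
    have h2 := ih (fun g hg => h g (by simp [hg]))
    show f.size + (lAnd i l).size + 1 ≤ _
    rw [List.length_cons, Nat.succ_mul]
    omega

lemma size_gNv {I J : Type} (i : Ltr n → I) (i0 : I) (t : Bool) :
    (gNv (J := J) (π := π) i i0 t).size ≤ n * 8 + 3 := by
  refine (size_lOr _ 7 _ ?_).trans (by simp)
  intro f hf
  simp only [List.mem_map] at hf
  obtain ⟨j, _, rfl⟩ := hf
  simp [Fm.size]

lemma size_gNe {J : Type} : (gNe (J := J) (π := π) (n := n) (k := k)).size ≤ n * 8 + 3 := by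
  refine (size_lOr _ 7 _ ?_).trans (by simp)
  intro f hf
  simp only [List.mem_map] at hf
  obtain ⟨j, _, rfl⟩ := hf
  simp [Fm.size]

lemma size_gEq {J : Type} : (gEq (J := J) (π := π) (n := n) (k := k)).size ≤ k * 8 + 3 := by
  refine (size_lAnd _ 7 _ ?_).trans (by simp)
  intro f hf
  simp only [List.mem_map] at hf
  obtain ⟨j, _, rfl⟩ := hf
  simp [Fm.size]

lemma size_G2 (o : Option (Ltr n) ⊕ (Bool × Fin k)) :
    (G2 (π := π) o).size ≤ n * 8 + 10 := by
  rcases o with o | ⟨t, c⟩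
  · exact (size_gCp7 _ _ _ o).trans (by omega)
  · show (gNv (π := π) (J := Ic n k) Sum.inr (Sum.inl true) t).size + (1 + 1 + 1) + 1 ≤ _
    have := size_gNv (π := π) (J := Ic n k) (n := n) Sum.inr (Sum.inl true) t
    omega

lemma size_G3 {p : ℕ} (ψ : Fm (Vr p n k × Bool)) (u : Unit) :
    (G3 ψ u).size ≤ ψ.size + n * 24 + k * 8 + 20 := by
  show (gNv (π := Fin p) (J := Unit) (fun a => (Sum.inl (Sum.inr a) : Ic n k))
      (.inl (.inl true)) false).size +
    ((gNv (π := Fin p) (J := Unit) (fun a => (Sum.inl (Sum.inr a) : Ic n k))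
      (.inl (.inl true)) true).size +
      ((ψ.map trL).size + ((gNe (J := Unit) (π := Fin p) (n := n) (k := k)).size +
        (gEq (J := Unit) (π := Fin p) (n := n) (k := k)).size + 1) + 1) + 1) + 1 ≤ _
  rw [Fm.size_map]
  have h1 := size_gNv (π := Fin p) (J := Unit) (fun a => (Sum.inl (Sum.inr a) : Ic n k))
      (.inl (.inl true)) false
  have h2 := size_gNv (π := Fin p) (J := Unit) (fun a => (Sum.inl (Sum.inr a) : Ic n k))
      (.inl (.inl true)) true
  have h3 := size_gNe (J := Unit) (π := Fin p) (n := n) (k := k)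
  have h4 := size_gEq (J := Unit) (π := Fin p) (n := n) (k := k)
  omega

end sizes

namespace SD

/-- the levels -/
def lvl {π : Type} (n : ℕ) : (l : ℕ) →
    SD (π ⊕ Ia n) (l * stpC (4 * n + 2) (4 * n + 2) (4 * n + 1) 11 +
      (4 * n * 300 + 80 + stpC (4 * n + 1) (4 * n + 2) (4 * n + 1) 11))
      (fun v => Lvl n (fun x => v (.inl x)) l (fun i => v (.inr i)))
  | 0 => by
    have h : SD ((π ⊕ Ia n) ⊕ Ib n) (4 * n * 300 + 80 + stpC (4 * n + 1) (4 * n + 2) (4 * n + 1) 11)
        (fun v => Bas (2 * (2 * n)) (fun i => v (.inr i)) ∧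
        Stp (Sum.inl false) G0 (fun x => v (.inl (.inl x))) (fun i => v (.inr i))
          (fun j => v (.inl (.inr j)))) := by
      have h1 := bas (K := 2 * (2 * n)) (fun i => (Sum.inr i : (π ⊕ Ia n) ⊕ Ib n))
      have h2 := stp (Sum.inl false) (G0 (n := n) (π := π)) 11 size_G0
        (fun i => (Sum.inr i : (π ⊕ Ia n) ⊕ Ib n)) (fun j => .inl (.inr j)) (fun x => .inl (.inl x))
      refine (h1.and h2).mono ?_
      simp only [En.n_fin, En.n_sum, En.n_prod, En.n_bool, En.n_option]
      have e1 : 2 * (2 * n) = 4 * n := by ring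
      have e2 : 2 + 2 * (2 * n) = 4 * n + 2 := by ring
      rw [e2, e1]
    exact ((SD.exs (S := fun v (s0 : Ib n → ℚ) => Bas (2 * (2 * n)) s0 ∧
      Stp (Sum.inl false) G0 (fun x => v (.inl x)) s0 (fun j => v (.inr j))) h).mono
      (by omega)).congr (fun v => Iff.rfl)
  | l + 1 => by
    have h : SD ((π ⊕ Ia n) ⊕ Ia n) (l * stpC (4 * n + 2) (4 * n + 2) (4 * n + 1) 11 +
      (4 * n * 300 + 80 + stpC (4 * n + 1) (4 * n + 2) (4 * n + 1) 11) +
      stpC (4 * n + 2) (4 * n + 2) (4 * n + 1) 11)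
        (fun v => Lvl n (fun x => v (.inl (.inl x))) l (fun i => v (.inr i)) ∧
        Stp (Sum.inl false) G1 (fun x => v (.inl (.inl x))) (fun i => v (.inr i))
          (fun j => v (.inl (.inr j)))) := by
      have h1 := (lvl (π := π) n l).ren (Sum.elim (fun x => .inl (.inl x)) (fun i => .inr i) :
        π ⊕ Ia n → (π ⊕ Ia n) ⊕ Ia n)
      have h2 := stp (Sum.inl false) (G1 (n := n) (π := π)) 11 (size_gCp _ _ _)
        (fun i => (Sum.inr i : (π ⊕ Ia n) ⊕ Ia n)) (fun j => .inl (.inr j)) (fun x => .inl (.inl x))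
      refine (h1.and h2).mono ?_
      simp only [En.n_fin, En.n_sum, En.n_prod, En.n_bool, En.n_option]
      have e1 : 2 * (2 * n) = 4 * n := by ring
      have e2 : 2 + 2 * (2 * n) = 4 * n + 2 := by ring
      rw [e2, e1]
    exact ((SD.exs (S := fun v (s0 : Ia n → ℚ) => Lvl n (fun x => v (.inl x)) l s0 ∧
      Stp (Sum.inl false) G1 (fun x => v (.inl x)) s0 (fun j => v (.inr j))) h).mono
      (by rw [add_mul l 1, one_mul]; omega)).congr (fun v => Iff.rfl)

end SD

end Vale.Agent.P027.N
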