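import Vale.Agent.P027.N.Chk

set_option linter.all false

/-! Valuations of values. -/

namespace Vale.Agent.P027.N

open Vale.Agent.P027 Vale.Agent.P027.Q

lemma Ix.ne {m : ℤ} {s : ℚ} (h : Ix m s) : s ≠ 0 := h.2.1

lemma Ix.m_ne {m : ℤ} {s : ℚ} (h : Ix m s) : m ≠ 0 := by
  rintro rfl
  exact absurd h.1 (by decide)

lemma ix_val {m : ℤ} {s : ℚ} (h : Ix m s) {q : ℕ} (hq : q.Prime) :
    padicValRat q (xc (m • P0)) = 2 * padicValRat q s := by
  have : Fact q.Prime := ⟨hq⟩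
  rw [xc_of_hasX h.2.2, padicValRat.neg, padicValRat.pow]
  norm_num

lemma ix_hv {m : ℤ} {s : ℚ} (h : Ix m s) {q : ℕ} (hq : q.Prime) : hv q m = padicValRat q s := by
  unfold hv
  rw [ix_val h hq]
  omega

lemma ix_dv {m : ℤ} {s : ℚ} (h : Ix m s) {q : ℕ} (hq : q.Prime) :
    Dv q m ↔ padicValRat q s < 0 := by
  unfold Dv
  rw [ix_val h hq]
  constructor
  · rintro (h1 | h1)
    · exact absurd h1 h.m_ne
    · omega
  · intro h1
    right; omega

lemma hv_mul {q : ℕ} (hq : q.Prime) {n k : ℤ} (hn0 : n ≠ 0) (hn : Dv q n) (hk : k ≠ 0) :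
    hv q (n * k) = hv q n - padicValInt q k := by
  have : Fact q.Prime := ⟨hq⟩
  rcases hn with hn | hn
  · exact absurd hn hn0
  unfold hv
  rw [val_smul_int q hn0 (norm_gt_of_val_neg q (xc_ne_zero hn0) hn) hk]
  omega

/-- the valuation for a multiple of the order prime to `q` -/
lemma hv_ord {q : ℕ} (hq : q.Prime) {n : ℕ} (hn : Ord q n) {m : ℤ} (hm : m ≠ 0) (h : Dv q m) :
    hv q m = hv q n - padicValInt q m + padicValNat q n := by
  have hf : Fact q.Prime := ⟨hq⟩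
  obtain ⟨k, hk⟩ := (hn.2 m).1 h
  have hn0 : ((n : ℕ) : ℤ) ≠ 0 := by exact_mod_cast hn.1.ne'
  have hk0 : k ≠ 0 := by rintro rfl; simp at hk; exact hm hk
  have hd : Dv q (n : ℤ) := (hn.2 _).2 dvd_rfl
  rw [hk, hv_mul hq hn0 hd hk0, padicValInt.mul hn0 hk0]
  have : padicValInt q (n : ℤ) = padicValNat q n := by
    rw [padicValInt, Int.natAbs_natCast]
  rw [this]
  push_cast
  ring

lemma quart_ix {s : ℚ} (h : Quart s) : ∃ m : ℤ, Ix m s := by
  obtain ⟨hs, r, hr⟩ := h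
  have e : (s * r) ^ 2 = (-s ^ 2) ^ 3 + 10 * (-s ^ 2) ^ 2 - 7 * (-s ^ 2) := by
    rw [mul_pow, hr]; ring
  have hX : HasX (pt (-s ^ 2) (s * r) e) (-s ^ 2) := ⟨_, e, rfl⟩
  obtain ⟨k, hk⟩ := odd_of_neg_sq hX hs rfl
  refine ⟨2 * k + 1, ⟨k, rfl⟩, hs, ?_⟩
  rw [← hk]; exact hX

lemma ix_quart {m : ℤ} {s : ℚ} (h : Ix m s) : Quart s := by
  obtain ⟨-, hs, y, hy, -⟩ := h
  refine ⟨hs, y / s, ?_⟩
  field_simp
  linear_combination hy

/-- the order at two -/
lemma ord_two_dvd {k : ℤ} (h : Dv 2 k) : (4 : ℤ) ∣ k := by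
  have hq : Nat.Prime 2 := Nat.prime_two
  obtain ⟨M, hM⟩ := Q.exists_ord 2 hq
  have h8 : (M : ℤ) ∣ 8 := by
    rw [← hM]
    right
    rw [xc_of_hasX hasX_8]
    have h1 : (529 / 784 : ℚ) = ((529 : ℕ) : ℚ) / (((49 : ℕ) : ℚ) * ((2 : ℕ) : ℚ) ^ 4) := by norm_num
    rw [h1, padicValRat.div (by norm_num) (by norm_num),
      padicValRat.mul (by norm_num) (by norm_num), padicValRat.pow, vself hq,
      vnat_zero (by norm_num), vnat_zero (by norm_num)]
    norm_num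
  have h4 : ¬ (M : ℤ) ∣ 4 := by
    rw [← hM]
    rintro (h | h)
    · norm_num at h
    · rw [xc_of_hasX hasX_4] at h
      have h1 : (4 : ℚ) = ((2 : ℕ) : ℚ) ^ 2 := by norm_num
      rw [h1, padicValRat.pow, vself hq] at h
      norm_num at h
  have hMk : (M : ℤ) ∣ k := (hM k).1 h
  have h8' : M ∣ 8 := by exact_mod_cast h8
  have h4' : ¬ M ∣ 4 := by exact_mod_cast h4
  have hMle : M ≤ 8 := Nat.le_of_dvd (by norm_num) h8'
  have : M = 8 := by
    have h5 : ∀ M : ℕ, M ≤ 8 → M ∣ 8 → ¬ M ∣ 4 → M = 8 := by decide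
    exact h5 M hMle h8' h4'
  subst this
  exact dvd_trans (by norm_num) hMk

lemma val2_ix {m : ℤ} {s : ℚ} (h : Ix m s) : padicValRat 2 s = 0 := by
  have hf : Fact (Nat.Prime 2) := ⟨Nat.prime_two⟩
  obtain ⟨k, hk⟩ := h.1
  by_contra hne
  rcases lt_or_gt_of_ne hne with h1 | h1
  · have := ord_two_dvd ((ix_dv h Nat.prime_two).2 h1)
    omega
  · -- the point plus `T0` is in the kernel of reduction
    have hX := h.2.2
    have hx0 : -s ^ 2 ≠ 0 := neg_ne_zero.2 (pow_ne_zero _ h.ne)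
    have hT := hasX_add_T0 hX hx0
    obtain ⟨G, hG⟩ := Q.exists_group 2 Nat.prime_two
    have hmem : m • P0 + T0 ∈ G := by
      rw [hG _ _ hT, padicValRat.div (by norm_num) hx0, padicValRat.neg, padicValRat.neg,
        padicValRat.pow]
      have h7 : padicValRat 2 (7 : ℚ) = 0 := by
        have := vnat_zero (p := 2) (n := 7) (by norm_num)
        exact_mod_cast this
      rw [h7]
      push_cast
      omega
    have h2 : (2 * m) • P0 ∈ G := by
      have e : (2 * m) • P0 = (m • P0 + T0) + (m • P0 + T0) := by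
        have h3 : (2 * m) • P0 = m • P0 + m • P0 := by rw [← add_zsmul]; congr 1; ring
        rw [h3]
        calc m • P0 + m • P0 = m • P0 + m • P0 + 0 := by rw [add_zero]
          _ = m • P0 + m • P0 + (T0 + T0) := by rw [two_T0]
          _ = _ := by abel
      rw [e]
      exact G.add_mem hmem hmem
    have h2m : 2 * m ≠ 0 := by have := h.m_ne; omega
    have h4 := ord_two_dvd (Or.inr ((hG _ _ (hasX_n h2m)).1 h2))
    omega

lemma not_dv_three {m : ℤ} (h : Odd m) : ¬ Dv 3 m := by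
  intro hd
  have hq : Nat.Prime 3 := Nat.prime_three
  obtain ⟨M, hM⟩ := Q.exists_ord 3 hq
  have h6 : (M : ℤ) ∣ 6 := by
    rw [← hM]
    right
    rw [val_six]; norm_num
  have h3 : ¬ (M : ℤ) ∣ 3 := by
    rw [← hM]
    rintro (h | h)
    · norm_num at h
    · rw [xc_of_hasX hasX_3] at h
      have h1 : (-9 : ℚ) = -(((3 : ℕ) : ℚ) ^ 2) := by norm_num
      rw [h1, padicValRat.neg, padicValRat.pow, vself hq] at h
      norm_num at h
  have hMk : (M : ℤ) ∣ m := (hM m).1 hd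
  have h6' : M ∣ 6 := by exact_mod_cast h6
  have h3' : ¬ M ∣ 3 := by exact_mod_cast h3
  have hMle : M ≤ 6 := Nat.le_of_dvd (by norm_num) h6'
  have h2 : 2 ∣ M := by
    have h5 : ∀ M : ℕ, M ≤ 6 → M ∣ 6 → ¬ M ∣ 3 → 2 ∣ M := by decide
    exact h5 M hMle h6' h3'
  have h2m : (2 : ℤ) ∣ m := dvd_trans (by exact_mod_cast h2) hMk
  obtain ⟨k, hk⟩ := h
  omega

lemma val3_ix {m : ℤ} {s : ℚ} (h : Ix m s) : 0 ≤ padicValRat 3 s := by
  by_contra hcon
  push Not at hcon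
  exact not_dv_three h.1 ((ix_dv h Nat.prime_three).2 hcon)

end Vale.Agent.P027.N
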